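import Vale.Agent.P221.T.Top
import Vale.Agent.P251.S.Coprod

/-!
# P221, part T: lifting property, graded maps, finite sums of suspensions

* `Lifts S q` : the lifting property of the quotient `q : P ⟶ B` (consumed by the main induction);
* `gc_zero_shift`, `gc_unit_shift`;
* `SrcT.map0 f : SysMap (S.sys Z) (S.sys Y) 0` for `f : Z ⟶ Y`;
* `decomp` : maps into a finite sum of suspensions.
-/

open CategoryTheory MonoidalCategory Limits Pretriangulated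
open Vale.Agent.P251.T Vale.Agent.P251.M

set_option linter.unusedSectionVars false

universe u

namespace Vale.Agent.P221.T

variable {𝒯 : Type u} [Category.{0} 𝒯] [Preadditive 𝒯] [HasZeroObject 𝒯]
    [HasShift 𝒯 ℤ] [∀ n : ℤ, (shiftFunctor 𝒯 n).Additive] [Pretriangulated 𝒯] [IsTriangulated 𝒯]
    [MonoidalCategory 𝒯] [SymmetricCategory 𝒯] [TensorTriangulated 𝒯] [MonoidalClosed 𝒯]
    [HasCoproducts.{0} 𝒯] [HasProducts.{0} 𝒯] [StableCat 𝒯]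

variable {p n : ℕ} {P : 𝒯}

/-- The lifting property of `q : P ⟶ B`: every `a : P⟦k⟧ ⟶ Y`, `Y` a `p`-complete object with a
filtered system, which is killed by all `x l` extends along `q⟦k⟧`. -/
def Lifts (S : SrcT p n P) {B : 𝒯} (q : P ⟶ B) : Prop :=
  ∀ (Y : 𝒯), H395.PComplete p Y → ∀ (N : Type) [AddCommGroup N] [Module (RR p n) N]
    (gr : ℤ → ℤ → AddSubgroup N) (d : ℤ) (_ : FS (S.sys Y) gr d),
    (∀ m : ℕ, Van p n {l | l < m} gr d) → ∀ (k : ℤ) (a : P⟦k⟧ ⟶ Y), d ≤ k →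
    (∀ l, (S.sys Y).act rfl a (S.x l) = 0) → ∃ b : B⟦k⟧ ⟶ Y, q⟦k⟧' ≫ b = a

section gc

theorem gc_zero_shift {A Q Y : 𝒯} {k : ℤ} (h : (0 : ℤ) + k = k) (γ : A⟦k⟧ ⟶ Q) (a : Q ⟶ Y) :
    gc h γ ((shiftFunctorZero 𝒯 ℤ).hom.app Q ≫ a) = γ ≫ a := by
  have h1 : γ⟦(0 : ℤ)⟧' ≫ (shiftFunctorZero 𝒯 ℤ).hom.app Q =
      (shiftFunctorZero 𝒯 ℤ).hom.app (A⟦k⟧) ≫ γ := (shiftFunctorZero 𝒯 ℤ).hom.naturality γ
  unfold gc
  rw [← Category.assoc (γ⟦(0 : ℤ)⟧'), h1, shiftFunctorAdd'_add_zero_hom_app, Category.assoc,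
    ← Category.assoc, Iso.inv_hom_id_app]
  exact Category.id_comp _

theorem gc_unit_shift {A Q Y : 𝒯} {e : ℤ} (h : e + (0 : ℤ) = e) (q : A ⟶ Q) (b : Q⟦e⟧ ⟶ Y) :
    gc h ((shiftFunctorZero 𝒯 ℤ).hom.app A ≫ q) b = q⟦e⟧' ≫ b := by
  unfold gc
  rw [Functor.map_comp, shiftFunctorAdd'_zero_add_hom_app, Category.assoc, ← Category.assoc,
    ← Functor.map_comp, Iso.inv_hom_id_app, CategoryTheory.Functor.map_id]
  exact Category.id_comp _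

/-- `(A⟦k'⟧ ⟶ Q) ≃ (A⟦k⟧ ⟶ Q⟦e⟧)` -/
theorem gc_surj {A Q : 𝒯} {e k k' : ℤ} (h : e + k' = k) (z : A⟦k⟧ ⟶ Q⟦e⟧) :
    ∃ w : A⟦k'⟧ ⟶ Q, gc h w (𝟙 _) = z := by
  obtain ⟨w, hw⟩ := (shiftFunctor 𝒯 e).map_surjective
    ((shiftFunctorAdd' 𝒯 k' e k (by omega)).inv.app A ≫ z)
  refine ⟨w, ?_⟩
  unfold gc
  rw [hw, Category.comp_id, ← Category.assoc, Iso.hom_inv_id_app]
  exact Category.id_comp _

theorem gc_inj {A Q : 𝒯} {e k k' : ℤ} (h : e + k' = k) {w w' : A⟦k'⟧ ⟶ Q}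
    (hw : gc h w (𝟙 _) = gc h w' (𝟙 _)) : w = w' := by
  unfold gc at hw
  rw [Category.comp_id, Category.comp_id] at hw
  exact (shiftFunctor 𝒯 e).map_injective
    ((cancel_epi ((shiftFunctorAdd' 𝒯 k' e k (by omega)).hom.app A)).1 hw)

theorem gc_eq {A Q Y : 𝒯} {e k k' : ℤ} (h : e + k' = k) (w : A⟦k'⟧ ⟶ Q) (b : Q⟦e⟧ ⟶ Y) :
    gc h w b = gc h w (𝟙 _) ≫ b := by
  rw [← gc_comp, Category.id_comp]

theorem gc_ι_desc {A Q Y : 𝒯} {r : ℕ} (e : Fin r → ℤ) (b : ∀ j, Q⟦e j⟧ ⟶ Y) (j : Fin r)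
    {k k' : ℤ} (h : e j + k = k') (w : A⟦k⟧ ⟶ Q) :
    gc h w (Sigma.ι (fun j => Q⟦e j⟧) j) ≫ Sigma.desc b = gc h w (b j) := by
  rw [← gc_comp, Sigma.ι_desc]

/-- maps into a finite sum of suspensions -/
theorem decomp {A Q : 𝒯} {r : ℕ} (e : Fin r → ℤ) (k : ℤ) (z : A⟦k⟧ ⟶ ∐ fun i => Q⟦e i⟧) :
    ∃! w : ∀ i, (A⟦k - e i⟧ ⟶ Q),
      z = ∑ i, gc (by omega : e i + (k - e i) = k) (w i) (Sigma.ι (fun i => Q⟦e i⟧) i) := by
  classical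
  have key : ∀ (w : ∀ i, (A⟦k - e i⟧ ⟶ Q)) (j : Fin r),
      (∑ i, gc (by omega : e i + (k - e i) = k) (w i) (Sigma.ι (fun i => Q⟦e i⟧) i)) ≫
        proj (fun i => Q⟦e i⟧) j = gc (by omega : e j + (k - e j) = k) (w j) (𝟙 _) := by
    intro w j
    rw [Preadditive.sum_comp, Finset.sum_eq_single_of_mem j (Finset.mem_univ _)]
    · rw [← gc_comp, ι_proj_self]
    · intro i _ hij
      rw [← gc_comp, ι_proj_of_ne _ hij, gc_zero_right]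
  obtain ⟨g, hg⟩ := Vale.Agent.P251.S.finite_sum (fun i => Q⟦e i⟧) z
  choose w hw using fun i => gc_surj (by omega : e i + (k - e i) = k) (g i)
  refine ⟨w, ?_, fun w' hw' => ?_⟩
  · change z = _
    rw [hg]
    refine Finset.sum_congr rfl fun i _ => ?_
    rw [gc_eq, hw]
  · have hz : z = ∑ i, gc (by omega : e i + (k - e i) = k) (w i) (Sigma.ι (fun i => Q⟦e i⟧) i) := by
      rw [hg]
      refine Finset.sum_congr rfl fun i _ => ?_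
      rw [gc_eq, hw]
    funext j
    have h1 := key w' j
    rw [← hw', hz, key w j] at h1
    exact (gc_inj _ h1).symm

end gc

/-- the map of systems of `f : Z ⟶ Y` -/
noncomputable def SrcT.map0 (S : SrcT p n P) {Z Y : 𝒯} (f : Z ⟶ Y) :
    SysMap (S.sys Z) (S.sys Y) 0 :=
  S.map ((shiftFunctorZero 𝒯 ℤ).hom.app Z ≫ f)

theorem SrcT.map0_f (S : SrcT p n P) {Z Y : 𝒯} (f : Z ⟶ Y) (k : ℤ) (a : P⟦k⟧ ⟶ Z) :
    (S.map0 f).f (add_zero k) a = a ≫ f := gc_zero_shift (zero_add k) a f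

theorem SrcT.map0_g (S : SrcT p n P) {Z Y : 𝒯} (f : Z ⟶ Y) (k : ℤ) (a : (𝟙_ 𝒯)⟦k⟧ ⟶ Z) :
    (S.map0 f).g (add_zero k) a = a ≫ f := gc_zero_shift (zero_add k) a f

end Vale.Agent.P221.T
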