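import Vale.Agent.P221.H246.Eta
import Vale.Agent.P221.T.Coor
import Mathlib.RingTheory.Localization.Defs

/-!
# P221, part T: the right unit of `BP_* BP` (pure algebra)

`Z0 p` : the integers localised at `p`; `G0 p = Z0 p [v_1, v_2, …][t_1, t_2, …]`.
`eta0 i` : the right unit of `v_{i+1}`: over `G0 p` there is a strict series `g` with
`g.c (p^(k+1) - 1) = t_{k+1}` and `g⁻¹ • H(v) = H(eta0)`, `H` the Hazewinkel law.
-/

namespace Vale.Agent.P221.T.H520

open Vale.Agent.P217 Vale.Agent.P251.F Vale.Agent.P257.H80 Vale.Agent.P221.H246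
open Vale.Agent.P221.T

/-! ### the `p`-local integers -/

/-- the integers prime to `p` -/
def Zs (p : ℕ) [hp : Fact p.Prime] : Submonoid ℤ where
  carrier := {z | ¬ (p : ℤ) ∣ z}
  one_mem' := fun h => by
    have h1 := Int.natCast_dvd_natCast.1 (by exact_mod_cast h : ((p : ℕ) : ℤ) ∣ ((1 : ℕ) : ℤ))
    exact hp.out.one_lt.ne' (Nat.dvd_one.1 h1)
  mul_mem' := fun {a b} ha hb h => by
    rcases (Nat.prime_iff_prime_int.1 hp.out).dvd_or_dvd h with h | h
    · exact ha h
    · exact hb h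

/-- `ℤ` localised at `p` -/
def Z0 (p : ℕ) [Fact p.Prime] : Type := Localization (Zs p)

noncomputable instance (p : ℕ) [Fact p.Prime] : CommRing (Z0 p) :=
  inferInstanceAs (CommRing (Localization (Zs p)))

variable (p : ℕ) [hp : Fact p.Prime]

theorem ploc_loc : PLoc p (Localization (Zs p)) := by
  intro m hm
  have h := IsLocalization.map_units (Localization (Zs p))
    (⟨(m : ℤ), fun h => hm (by exact_mod_cast h)⟩ : Zs p)
  simpa using h

theorem ploc_Z0 : PLoc p (Z0 p) := ploc_loc p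

variable {p} {B : Type*} [CommRing B]

theorem Z0.isUnit (hB : PLoc p B) (y : Zs p) : IsUnit (Int.castRingHom B y) := by
  obtain ⟨y, hy⟩ := y
  have h1 : ¬ p ∣ y.natAbs := fun h => hy (Int.natCast_dvd.2 h)
  have h2 := hB y.natAbs h1
  rcases Int.natAbs_eq y with h | h
  · have h3 : Int.castRingHom B y = ((y.natAbs : ℕ) : B) := by
      conv_lhs => rw [h]
      simp
    change IsUnit (Int.castRingHom B y)
    rw [h3]
    exact h2
  · have h3 : Int.castRingHom B y = -((y.natAbs : ℕ) : B) := by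
      conv_lhs => rw [h]
      simp
    change IsUnit (Int.castRingHom B y)
    rw [h3]
    exact h2.neg

/-- the map to a `p`-local ring -/
noncomputable def Z0.lift (hB : PLoc p B) : Z0 p →+* B :=
  (IsLocalization.lift (M := Zs p) (g := Int.castRingHom B) (Z0.isUnit hB) :
    Localization (Zs p) →+* B)

theorem loc_hom_ext (f g : Localization (Zs p) →+* B) : f = g :=
  IsLocalization.ringHom_ext (Zs p) (RingHom.ext_int _ _)

theorem Z0.hom_ext (f g : Z0 p →+* B) : f = g := loc_hom_ext f g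

theorem loc_exists_mul (z : Localization (Zs p)) :
    ∃ (m : ℕ) (a : ℤ), ¬ p ∣ m ∧ (m : Localization (Zs p)) * z = a := by
  obtain ⟨⟨a, ⟨s, hs⟩⟩, h⟩ := IsLocalization.surj (Zs p) z
  have h' : z * (s : Localization (Zs p)) = (a : Localization (Zs p)) := by simpa using h
  refine ⟨s.natAbs, if 0 ≤ s then a else -a, fun h => hs (Int.natCast_dvd.2 h), ?_⟩
  rcases le_or_gt 0 s with h0 | h0
  · have h1 : ((s.natAbs : ℕ) : Localization (Zs p)) = (s : Localization (Zs p)) := by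
      rw [← Int.cast_natCast, Int.natAbs_of_nonneg h0]
    rw [if_pos h0, h1, ← h', mul_comm]
  · have h1 : ((s.natAbs : ℕ) : Localization (Zs p)) = -(s : Localization (Zs p)) := by
      rw [← Int.cast_natCast, Int.ofNat_natAbs_of_nonpos h0.le, Int.cast_neg]
    rw [if_neg (by omega), h1, Int.cast_neg, ← h']
    ring

theorem Z0.exists_mul (z : Z0 p) : ∃ (m : ℕ) (a : ℤ), ¬ p ∣ m ∧ (m : Z0 p) * z = a :=
  loc_exists_mul z

variable (p)

/-- `Z0 p [v_1, v_2, …]` -/
abbrev K0 : Type := MvPolynomial ℕ (Z0 p)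

/-- `Z0 p [v_1, v_2, …][t_1, t_2, …]` -/
abbrev G0 : Type := MvPolynomial ℕ (K0 p)

/-- `v_{i+1} ↦ v_{i+1}` -/
noncomputable def φ0 : MvPolynomial ℕ ℤ →+* G0 p :=
  MvPolynomial.eval₂Hom (Int.castRingHom (G0 p)) fun i => MvPolynomial.C (MvPolynomial.X i)

theorem φ0_X (i : ℕ) : φ0 p (MvPolynomial.X i) = MvPolynomial.C (MvPolynomial.X i) := by
  rw [φ0, MvPolynomial.eval₂Hom_X']

/-! ### one-level polynomials -/

/-- `Z0 p [v_1, v_2, …, t_1, t_2, …]` -/
abbrev S0 : Type := MvPolynomial (ℕ ⊕ ℕ) (Z0 p)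

/-- the weights -/
def wS : ℕ ⊕ ℕ → ℕ := Sum.elim (wv p) (wv p)

/-- `v_{i+1} ↦ v_{i+1}` -/
noncomputable def φS : MvPolynomial ℕ ℤ →+* S0 p :=
  MvPolynomial.eval₂Hom (Int.castRingHom (S0 p)) fun i => MvPolynomial.X (Sum.inl i)

theorem φS_X (i : ℕ) : φS p (MvPolynomial.X i) = MvPolynomial.X (Sum.inl i) := by
  rw [φS, MvPolynomial.eval₂Hom_X']

/-- naturality of the typical isomorphism -/
theorem map_typical {A B : Type*} [CommRing A] [CommRing B] (θ : A →+* B)
    {φ ψ : MvPolynomial ℕ ℤ →+* A} {g : InvSeries A}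
    (h : g⁻¹ • (haz p).map φ = (haz p).map ψ) :
    (InvSeries.map θ g)⁻¹ • (haz p).map (θ.comp φ) = (haz p).map (θ.comp ψ) := by
  rw [← Law.map_map, ← Law.map_map, ← map_inv, ← InvSeries.map_smul, h]

/-- rescaling of the typical isomorphism -/
theorem scale_typical {S L : Type*} [CommRing S] [CommRing L] (hL : PLoc p L) (u : Lˣ)
    (σ cc : S →+* L) {φ ψ : MvPolynomial ℕ ℤ →+* S} {g : InvSeries S} (hg : g ∈ strict S)
    (hψ : g⁻¹ • (haz p).map φ = (haz p).map ψ)
    (hφ : ∀ k, σ (φ (MvPolynomial.X k)) =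
      (u : L) ^ (p ^ (k + 1) - 1) * cc (φ (MvPolynomial.X k)))
    (hgc : ∀ k, σ (g.c (p ^ (k + 1) - 1)) =
      (u : L) ^ (p ^ (k + 1) - 1) * cc (g.c (p ^ (k + 1) - 1))) (k : ℕ) :
    σ (ψ (MvPolynomial.X k)) = (u : L) ^ (p ^ (k + 1) - 1) * cc (ψ (MvPolynomial.X k)) := by
  have h1 : (haz p).map (σ.comp φ) = (InvSeries.lin u)⁻¹ • (haz p).map (cc.comp φ) :=
    haz_lin p u hφ
  set ψ' : MvPolynomial ℕ ℤ →+* L := MvPolynomial.eval₂Hom (Int.castRingHom L) fun k =>
    (u : L) ^ (p ^ (k + 1) - 1) * cc (ψ (MvPolynomial.X k)) with hψ'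
  have h2 : (haz p).map ψ' = (InvSeries.lin u)⁻¹ • (haz p).map (cc.comp ψ) := by
    refine haz_lin p u fun k => ?_
    rw [hψ', MvPolynomial.eval₂Hom_X', RingHom.comp_apply]
  have h3 : (InvSeries.map σ g)⁻¹ • (haz p).map (σ.comp φ) = (haz p).map (σ.comp ψ) := by
    rw [← Law.map_map, ← Law.map_map, ← map_inv, ← InvSeries.map_smul, hψ]
  have h4 : (InvSeries.map cc g)⁻¹ • (haz p).map (cc.comp φ) = (haz p).map (cc.comp ψ) := by
    rw [← Law.map_map, ← Law.map_map, ← map_inv, ← InvSeries.map_smul, hψ]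
  set g' : InvSeries L := (InvSeries.lin u)⁻¹ * InvSeries.map cc g * InvSeries.lin u with hg'
  have h5 : g'⁻¹ • (haz p).map (σ.comp φ) = (haz p).map ψ' := by
    rw [h1, h2, ← h4, hg', mul_inv_rev, mul_inv_rev, inv_inv, mul_smul, mul_smul, smul_inv_smul]
  have hg's : g' ∈ strict L := by
    rw [mem_strict, hg', c_conj_lin, pow_zero, one_mul, InvSeries.c_map, mem_strict.1 hg, map_one]
  have hgs : InvSeries.map σ g ∈ strict L := map_mem_strict σ hg
  have h6 : InvSeries.map σ g = g' := by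
    refine eq_of_typical p hL hgs hg's ⟨_, h3⟩ ⟨_, h5⟩ fun k => ?_
    rw [hg', c_conj_lin, InvSeries.c_map, InvSeries.c_map, hgc]
  have h7 : σ.comp ψ = ψ' := by
    refine haz_map_injective p hL ?_
    rw [← h3, ← h5, h6]
  have h8 := congrArg (fun f => f (MvPolynomial.X k)) h7
  change σ (ψ (MvPolynomial.X k)) = _ at h8
  rw [h8, hψ', MvPolynomial.eval₂Hom_X']

theorem exists_etaS : ∃ g ∈ strict (S0 p), (∀ k, g.c (p ^ (k + 1) - 1) =
    MvPolynomial.X (Sum.inr k)) ∧ ∃ ψ : MvPolynomial ℕ ℤ →+* S0 p,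
      g⁻¹ • (haz p).map (φS p) = (haz p).map ψ ∧
        ∀ i, (ψ (MvPolynomial.X i)).IsWeightedHomogeneous (wS p) (wv p i) := by
  have hS : PLoc p (S0 p) := (ploc_Z0 p).map MvPolynomial.C
  obtain ⟨g, hg, ⟨ψ, hψ⟩, hgc⟩ := exists_typical p hS ((haz p).map (φS p))
    fun k => MvPolynomial.X (Sum.inr k)
  refine ⟨g, hg, hgc, ψ, hψ, fun i => isWeightedHomogeneous_of_scale ?_⟩
  have key := scale_typical p (L := LaurentPolynomial (S0 p)) (hS.map LaurentPolynomial.C)
    (tU (S0 p)) (scaleHom (wS p)) LaurentPolynomial.C hg hψ (fun k => by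
      rw [φS_X, scaleHom_X]
      change _ = (LaurentPolynomial.T 1) ^ (p ^ (k + 1) - 1) * _
      rw [LaurentPolynomial.T_pow, mul_one, mul_comm]
      rfl) (fun k => by
      rw [hgc, scaleHom_X]
      change _ = (LaurentPolynomial.T 1) ^ (p ^ (k + 1) - 1) * _
      rw [LaurentPolynomial.T_pow, mul_one, mul_comm]
      rfl) i
  rw [key]
  change (LaurentPolynomial.T 1) ^ (p ^ (i + 1) - 1) * _ = _
  rw [LaurentPolynomial.T_pow, mul_one, mul_comm]
  rfl

/-! ### two levels -/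

/-- homogeneous elements of `G0 p` -/
def HG (k : ℤ) (g : G0 p) : Prop :=
  ∀ E, MvPolynomial.IsWeightedHomogeneous (fun i => sV p (i + 1)) (MvPolynomial.coeff E g)
    (k - dT p E)

variable {p}

theorem HG.zero (k : ℤ) : HG p k 0 := fun E => by
  rw [MvPolynomial.coeff_zero]
  exact MvPolynomial.isWeightedHomogeneous_zero _ _ _

theorem HG.add {k : ℤ} {f g : G0 p} (hf : HG p k f) (hg : HG p k g) : HG p k (f + g) := fun E => by
  rw [MvPolynomial.coeff_add]
  exact (hf E).add (hg E)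

theorem HG.sum {k : ℤ} {ι : Type*} (s : Finset ι) (f : ι → G0 p) (h : ∀ i ∈ s, HG p k (f i)) :
    HG p k (∑ i ∈ s, f i) := by
  classical
  induction s using Finset.induction_on with
  | empty => rw [Finset.sum_empty]; exact HG.zero k
  | insert a s ha ih =>
    rw [Finset.sum_insert ha]
    exact (h a (Finset.mem_insert_self a s)).add
      (ih fun i hi => h i (Finset.mem_insert_of_mem hi))

theorem HG.mul {k l : ℤ} {f g : G0 p} (hf : HG p k f) (hg : HG p l g) : HG p (k + l) (f * g) := by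
  classical
  intro E
  rw [MvPolynomial.coeff_mul]
  refine MvPolynomial.IsWeightedHomogeneous.sum _ _ _ fun x hx => ?_
  have h := (hf x.1).mul (hg x.2)
  rw [Finset.HasAntidiagonal.mem_antidiagonal] at hx
  have h1 : dT p E = dT p x.1 + dT p x.2 := by
    rw [← hx]
    unfold dT
    rw [map_add]
  have h2 : k - dT p x.1 + (l - dT p x.2) = k + l - dT p E := by rw [h1]; ring
  rwa [h2] at h

theorem HG.CC (c : Z0 p) : HG p 0 (MvPolynomial.C (MvPolynomial.C c)) := by
  classical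
  intro E
  rw [MvPolynomial.coeff_C]
  split_ifs with h
  · rw [← h]
    have h1 : (0 : ℤ) - dT p (0 : ℕ →₀ ℕ) = 0 := by simp [dT]
    rw [h1]
    exact MvPolynomial.isWeightedHomogeneous_C _ _
  · exact MvPolynomial.isWeightedHomogeneous_zero _ _ _

theorem HG.CX (i : ℕ) : HG p (sV p (i + 1)) (MvPolynomial.C (MvPolynomial.X i)) := by
  classical
  intro E
  rw [MvPolynomial.coeff_C]
  split_ifs with h
  · rw [← h]
    have h1 : sV p (i + 1) - dT p (0 : ℕ →₀ ℕ) = sV p (i + 1) := by simp [dT]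
    rw [h1]
    exact MvPolynomial.isWeightedHomogeneous_X _ _ _
  · exact MvPolynomial.isWeightedHomogeneous_zero _ _ _

theorem HG.X (k : ℕ) : HG p (sV p (k + 1)) (MvPolynomial.X k) := by
  classical
  intro E
  rw [MvPolynomial.coeff_X]
  split_ifs with h
  · rw [← h]
    have h1 : sV p (k + 1) - dT p (Finsupp.single k 1) = 0 := by
      rw [dT, Finsupp.weight_single, one_smul, sub_self]
    rw [h1]
    exact MvPolynomial.isWeightedHomogeneous_one _ _
  · exact MvPolynomial.isWeightedHomogeneous_zero _ _ _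

theorem HG.pow {k : ℤ} {f : G0 p} (hf : HG p k f) (m : ℕ) : HG p (m * k) (f ^ m) := by
  induction m with
  | zero =>
    rw [pow_zero, Nat.cast_zero, zero_mul]
    have h := HG.CC (1 : Z0 p)
    rwa [map_one, map_one] at h
  | succ m ih =>
    rw [pow_succ]
    have h := ih.mul hf
    have e : (m : ℤ) * k + k = ((m + 1 : ℕ) : ℤ) * k := by push_cast; ring
    rwa [e] at h

theorem HG.prod {ι : Type*} (s : Finset ι) (k : ι → ℤ) (f : ι → G0 p)
    (h : ∀ i ∈ s, HG p (k i) (f i)) : HG p (∑ i ∈ s, k i) (∏ i ∈ s, f i) := by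
  classical
  induction s using Finset.induction_on with
  | empty =>
    rw [Finset.sum_empty, Finset.prod_empty]
    have h := HG.CC (1 : Z0 p)
    rwa [map_one, map_one] at h
  | insert a s ha ih =>
    rw [Finset.sum_insert ha, Finset.prod_insert ha]
    exact (h a (Finset.mem_insert_self a s)).mul
      (ih fun i hi => h i (Finset.mem_insert_of_mem hi))

variable (p)

/-- from one level to two -/
noncomputable def ιS : S0 p →+* G0 p :=
  MvPolynomial.eval₂Hom (MvPolynomial.C.comp MvPolynomial.C)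
    (Sum.elim (fun i => MvPolynomial.C (MvPolynomial.X i)) MvPolynomial.X)

variable {p}

theorem sV_eq (i : ℕ) : sV p (i + 1) = 2 * (wv p i : ℤ) := by
  unfold sV wv
  have h := Nat.one_le_pow (i + 1) p hp.out.pos
  push_cast [h]
  ring

theorem HG_ιS {f : S0 p} {m : ℕ} (hf : f.IsWeightedHomogeneous (wS p) m) :
    HG p (2 * (m : ℤ)) (ιS p f) := by
  classical
  rw [f.as_sum, map_sum]
  refine HG.sum _ _ fun d hd => ?_
  have h1 := hf (MvPolynomial.mem_support_iff.1 hd)
  have h2 : ιS p (MvPolynomial.monomial d (MvPolynomial.coeff d f)) =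
      MvPolynomial.C (MvPolynomial.C (MvPolynomial.coeff d f)) * ∏ i ∈ d.support,
        (Sum.elim (fun i => MvPolynomial.C (MvPolynomial.X i)) MvPolynomial.X i : G0 p) ^ d i := by
    unfold ιS
    rw [MvPolynomial.coe_eval₂Hom, MvPolynomial.eval₂_monomial]
    rfl
  rw [h2]
  have h3 : HG p (∑ i ∈ d.support, (d i : ℤ) * (2 * (wS p i : ℤ))) (∏ i ∈ d.support,
      (Sum.elim (fun i => MvPolynomial.C (MvPolynomial.X i)) MvPolynomial.X i : G0 p) ^ d i) := by
    refine HG.prod _ _ _ fun i _ => HG.pow ?_ (d i)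
    rcases i with i | i
    · change HG p (2 * (wv p i : ℤ)) (MvPolynomial.C (MvPolynomial.X i))
      rw [← sV_eq]
      exact HG.CX i
    · change HG p (2 * (wv p i : ℤ)) (MvPolynomial.X i)
      rw [← sV_eq]
      exact HG.X i
  have h4 := (HG.CC (MvPolynomial.coeff d f)).mul h3
  have h5 : (0 : ℤ) + ∑ i ∈ d.support, (d i : ℤ) * (2 * (wS p i : ℤ)) = 2 * (m : ℤ) := by
    rw [← h1, Finsupp.weight_apply, Finsupp.sum, zero_add]
    push_cast
    rw [Finset.mul_sum]
    refine Finset.sum_congr rfl fun i _ => ?_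
    rw [nsmul_eq_mul]
    push_cast
    ring
  rwa [h5] at h4

variable (p)

/-- **the right unit of `v_{i+1}`** -/
noncomputable def eta0 (i : ℕ) : G0 p :=
  ιS p ((exists_etaS p).choose_spec.2.2.choose (MvPolynomial.X i))

theorem φ0_eq : φ0 p = (ιS p).comp (φS p) := by
  apply MvPolynomial.ringHom_ext
  · intro r
    simp
  · intro i
    rw [φ0_X, RingHom.comp_apply, φS_X, ιS, MvPolynomial.eval₂Hom_X']
    rfl

theorem eta0_spec : ∃ g ∈ strict (G0 p), (∀ k, g.c (p ^ (k + 1) - 1) = MvPolynomial.X k) ∧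
    ∃ ψ : MvPolynomial ℕ ℤ →+* G0 p, (∀ i, ψ (MvPolynomial.X i) = eta0 p i) ∧
      g⁻¹ • (haz p).map (B := G0 p) (φ0 p) = (haz p).map (B := G0 p) ψ := by
  have hg := (exists_etaS p).choose_spec.1
  have hgc := (exists_etaS p).choose_spec.2.1
  have hψ := (exists_etaS p).choose_spec.2.2.choose_spec.1
  refine ⟨InvSeries.map (ιS p) (exists_etaS p).choose, map_mem_strict (ιS p) hg, fun k => ?_,
    (ιS p).comp (exists_etaS p).choose_spec.2.2.choose, fun i => rfl, ?_⟩
  · rw [InvSeries.c_map, hgc, ιS, MvPolynomial.eval₂Hom_X']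
    rfl
  · rw [φ0_eq]
    exact map_typical p (ιS p) hψ

theorem eta0_HG (i : ℕ) : HG p (sV p (i + 1)) (eta0 p i) := by
  rw [sV_eq]
  exact HG_ιS ((exists_etaS p).choose_spec.2.2.choose_spec.2 i)

theorem eta0_hom (i : ℕ) (E : ℕ →₀ ℕ) :
    MvPolynomial.IsWeightedHomogeneous (fun i => sV p (i + 1)) (MvPolynomial.coeff E (eta0 p i))
      (sV p (i + 1) - dT p E) := eta0_HG p i E

/-! ### `p`-adic coefficients -/

theorem ploc_padic : PLoc p ℤ_[p] := fun m hm => PadicInt.isUnit_iff.2 <| by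
  rw [PadicInt.norm_def, PadicInt.coe_natCast]
  rw [Padic.norm_natCast_eq_one_iff]
  exact (Nat.Prime.coprime_iff_not_dvd hp.out).2 hm

/-- `Z0 p [v][t] ⟶ ℤ_p[v][t]` -/
noncomputable def toGG : G0 p →+* GG p :=
  MvPolynomial.map (MvPolynomial.map (Z0.lift (ploc_padic p)))

/-- the right unit -/
noncomputable def ηR (i : ℕ) : GG p := toGG p (eta0 p i)

theorem ηR_hom (i : ℕ) (E : ℕ →₀ ℕ) :
    HK p (sV p (i + 1) - dT p E) (MvPolynomial.coeff E (ηR p i)) := by
  unfold ηR toGG HK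
  rw [MvPolynomial.coeff_map]
  intro d hd
  rw [MvPolynomial.coeff_map] at hd
  exact eta0_hom p i E fun h => hd (by rw [h, map_zero])

theorem toGG_φ0_X (i : ℕ) : toGG p (φ0 p (MvPolynomial.X i)) =
    MvPolynomial.C (MvPolynomial.X i) := by
  rw [φ0_X, toGG, MvPolynomial.map_C, MvPolynomial.map_X]

theorem IB_eq : IB p ((toGG p).comp (φ0 p)) = (II p).map MvPolynomial.C := by
  rw [IB, II, Ideal.map_span, Set.image_insert_eq, ← Set.range_comp, map_natCast]
  congr 2
  refine congrArg Set.range ?_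
  funext i
  exact toGG_φ0_X p i

theorem v0_eq (i : ℕ) : v0 p ((toGG p).comp (φ0 p)) i = MvPolynomial.C (vK p i) := by
  rcases i with _ | i
  · rw [v0, vK, map_natCast]
  · rw [v0, vK]
    exact toGG_φ0_X p i

theorem ηR_mod (i : ℕ) (E : ℕ →₀ ℕ) :
    MvPolynomial.coeff E (ηR p i - ∑ a ∈ Finset.range (i + 2),
      MvPolynomial.C (vK p a) * tG p (i + 1 - a) ^ p ^ a) ∈ II p ^ 2 := by
  obtain ⟨g, hg, hgc, ψ, hψ, h⟩ := eta0_spec p
  have h1 : (InvSeries.map (toGG p) g)⁻¹ • (haz p).map ((toGG p).comp (φ0 p)) =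
      (haz p).map ((toGG p).comp ψ) := by
    rw [← Law.map_map, ← Law.map_map, ← map_inv, ← InvSeries.map_smul, h]
  obtain ⟨-, h2⟩ := eta_mem p (map_mem_strict (toGG p) hg) h1 i
  rw [IB_eq, ← Ideal.map_pow] at h2
  have h3 := MvPolynomial.mem_map_C_iff.1 h2 E
  have h4 : ((toGG p).comp ψ) (MvPolynomial.X i) = ηR p i := by
    rw [RingHom.comp_apply, hψ]
    rfl
  have h5 : ∀ k, (InvSeries.map (toGG p) g).c (p ^ k - 1) = tG p k := by
    intro k
    rcases k with _ | k
    · rw [pow_zero, Nat.sub_self, InvSeries.c_map, mem_strict.1 hg, map_one]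
      rfl
    · rw [InvSeries.c_map, hgc, toGG, MvPolynomial.map_X]
      rfl
  have h6 : ∑ a ∈ Finset.range (i + 2), v0 p ((toGG p).comp (φ0 p)) a *
      (InvSeries.map (toGG p) g).c (p ^ (i + 1 - a) - 1) ^ p ^ a = ∑ a ∈ Finset.range (i + 2),
        MvPolynomial.C (vK p a) * tG p (i + 1 - a) ^ p ^ a := by
    refine Finset.sum_congr rfl fun a _ => ?_
    rw [v0_eq, h5]
  rw [h4, h6] at h3
  exact h3

end Vale.Agent.P221.T.H520
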