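import Vale.Agent.P221.T.H520.Chi
import Vale.Agent.P221.H136.LeadT

/-!
# P221, part T: assembly

`thick_of_formD` : `B` a form of `BP⟨n⟩` over `b : BPS p R P W`, `Y` a `p`-complete `R`-module whose
homotopy is finitely generated over `ℤ_p[v_1, …, v_n]`. Then `Y` is in `Thick B`.
-/

open CategoryTheory MonoidalCategory MonObj Limits Pretriangulated
open Vale.Agent.P251.T Vale.Agent.P251.M Vale.Agent.P251.S

set_option linter.unusedSectionVars false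

universe u

namespace Vale.Agent.P221.T

variable {𝒯 : Type u} [Category.{0} 𝒯] [Preadditive 𝒯] [HasZeroObject 𝒯]
    [HasShift 𝒯 ℤ] [∀ n : ℤ, (shiftFunctor 𝒯 n).Additive] [Pretriangulated 𝒯] [IsTriangulated 𝒯]
    [MonoidalCategory 𝒯] [SymmetricCategory 𝒯] [TensorTriangulated 𝒯] [MonoidalClosed 𝒯]
    [HasCoproducts.{0} 𝒯] [HasProducts.{0} 𝒯] [StableCat 𝒯]

variable {p n : ℕ} [Fact p.Prime] {R P W : 𝒯} [MonObj R] [IsCommMonObj R]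

/-- (TOP) maps from `P` to a bounded above `p`-complete object, in the top degrees -/
def BPS.Top (b : BPS p R P W) : Prop :=
  ∀ (Y : 𝒯) (m : ℤ), H395.PComplete p Y → (∀ k, m < k → ∀ x : (𝟙_ 𝒯)⟦k⟧ ⟶ Y, x = 0) →
    ∀ k, m ≤ k → Function.Bijective fun a : P⟦k⟧ ⟶ Y => (η[R] ≫ b.c)⟦k⟧' ≫ a

/-- the homotopy of `Y` is finitely generated over `ℤ_p[v_1, …, v_n]` -/
def BPS.FinGen (b : BPS p R P W) (n : ℕ) {Y : 𝒯} (M : ModStr R Y) (hY : H395.PComplete p Y) :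
    Prop :=
  ∃ (r : ℕ) (e : Fin r → ℤ) (y : ∀ i, (𝟙_ 𝒯)⟦e i⟧ ⟶ Y), ∀ (k : ℤ) (z : (𝟙_ 𝒯)⟦k⟧ ⟶ Y),
    ∃ f : Fin r → MvPolynomial (Fin n) ℤ_[p],
      (∀ i, HK p (k - e i) (MvPolynomial.rename (fun i : Fin n => (i : ℕ)) (f i))) ∧
        PiM.of Y k z = ∑ i, b.kk M hY (MvPolynomial.rename (fun i : Fin n => (i : ℕ)) (f i))
          (PiM.of Y (e i) (y i))

/-- the environment of the end game of a form -/
theorem exists_env (hsrc : SpecSrc p n 𝒯) (b : BPS p R P W) (hTop : b.Top) {B : 𝒯}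
    (φ : FormD b n B)
    (hL : ∀ S : SrcT p n P, (∀ l, b.c⟦dd p n l⟧' ≫ S.x l =
      hat b.MP (b.cls (dd p n l) (φ.x l))) → Lifts S φ.Q) :
    ∃ (ld : Lead p n) (S : SrcT p n P) (O : OpAlg ld S.src)
      (TB : ∀ d, FS (S.sys B) (grR p n) d), Env S O φ.Q TB ∧
      ∀ (Y : 𝒯) (M : ModStr R Y) (hY : H395.PComplete p Y),
        letI : Module (KK p) (PiM Y) := b.mdl M hY
        Nonempty (Coor O (S.sys Y) (PiM Y) (PiM.gr Y)) := by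
  obtain ⟨ld⟩ := H136.specLead p n
  obtain ⟨S, O, hu, hSx, hχ, hco⟩ := hsrc R P W b ld φ.x φ.x_deg φ.x_mod
  obtain ⟨TB, hTB⟩ : ∃ TB : ∀ d, FS (S.sys B) (grR p n) d,
      Approx (S.sys B) TB ((shiftFunctorZero 𝒯 ℤ).hom.app P ≫ φ.Q) := by
    let _ : Module (KK p) (PiM B) := b.mdl φ.MB φ.hB
    obtain ⟨co, he, hc⟩ := hco B φ.MB φ.hB
    refine H746.specSB p n ld S.src O (S.sys B) (PiM B) (PiM.gr B) co
      (PiM.of B 0 (zr 𝒯 ≫ η[R] ≫ φ.q)) ⟨_, rfl⟩ ?_ _ fun E => ?_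
    · rintro k _ ⟨z, rfl⟩
      exact φ.free k z
    · exact (hc 0 _ E).trans (φ.coord E rfl)
  refine ⟨ld, S, O, TB, ⟨φ.hB, φ.pi_neg, hL S hSx, hTB, ?_, ?_⟩, fun Y M hY => ?_⟩
  · rw [hu]
    exact hTop
  · intro Y m hY _ _ h a γ
    exact chi_of_src b O hu hχ hY h a γ
  · obtain ⟨co, -⟩ := hco Y M hY
    exact ⟨co⟩

/-- **Assembly.** -/
theorem thick_of_formD (hsrc : SpecSrc p n 𝒯) (b : BPS p R P W) (hTop : b.Top) {B : 𝒯}
    (φ : FormD b n B)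
    (hL : ∀ S : SrcT p n P, (∀ l, b.c⟦dd p n l⟧' ≫ S.x l =
      hat b.MP (b.cls (dd p n l) (φ.x l))) → Lifts S φ.Q)
    (Y : 𝒯) (M : ModStr R Y) (hY : H395.PComplete p Y) (hfg : b.FinGen n M hY) : Thick B Y := by
  obtain ⟨ld, S, O, TB, E, hco⟩ := exists_env hsrc b hTop φ hL
  obtain ⟨r, e, y, hy⟩ := hfg
  let _ : Module (KK p) (PiM Y) := b.mdl M hY
  obtain ⟨co⟩ := hco Y M hY
  refine E.thick_of_coor Y hY (PiM Y) (PiM.gr Y) co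
    ⟨r, e, fun i => PiM.of Y (e i) (y i), fun i => ⟨_, rfl⟩, ?_⟩
  rintro k _ ⟨z, rfl⟩
  exact hy k z

end Vale.Agent.P221.T
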