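import Vale.Agent.P221.H903.E3

/-!
# P221, part (E3-1): exactness of the maps from `P⟦k⟧` to the Koszul complex

`homEx` : from the exactness of the homotopy modulo `p` and the vanishing of the maps from `P` to
complete objects of odd parity.
-/

open CategoryTheory MonoidalCategory Limits Pretriangulated
open Vale.Agent.P251.T Vale.Agent.P251.S Vale.Agent.P221.H395 Vale.Agent.P221.T
open Vale.Agent.P221.H903

set_option linter.unusedSectionVars false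

universe v u

namespace Vale.Agent.P221.T.H520

variable {𝒯 : Type u} [Category.{0} 𝒯] [Preadditive 𝒯] [HasZeroObject 𝒯]
    [HasShift 𝒯 ℤ] [∀ n : ℤ, (shiftFunctor 𝒯 n).Additive] [Pretriangulated 𝒯] [IsTriangulated 𝒯]
    [MonoidalCategory 𝒯] [SymmetricCategory 𝒯] [TensorTriangulated 𝒯] [MonoidalClosed 𝒯]
    [HasCoproducts.{0} 𝒯] [HasProducts.{0} 𝒯] [StableCat 𝒯]

variable {p : ℕ} {C P : 𝒯} {d : ℕ → ℤ} {x : ∀ l, P⟦d l⟧ ⟶ P}

theorem preg' (H : PHyp p C x) (m : ℕ) (k : ℤ) (y : ∀ k, HH C P k) (hy : y ∈ gsub (HH C P) k)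
    (w : ℕ → ∀ k, HH C P k) (_hw : ∀ l < m, w l ∈ gsub (HH C P) (k + d m - d l))
    (h : XH x C m y = ∑ l ∈ Finset.range m, XH x C l (w l)) :
    ∃ w' : ℕ → ∀ k, HH C P k, (∀ l < m, w' l ∈ gsub (HH C P) (k - d l)) ∧
      y = ∑ l ∈ Finset.range m, XH x C l (w' l) := by
  obtain ⟨w', hw'⟩ := H.reg m k (y k) (fun l => w l (k + d m - d l)) (by
    have h1 := congrFun h (k + d m)
    rw [xop_apply _ m y rfl, Finset.sum_apply] at h1
    rw [h1]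
    exact Finset.sum_congr rfl fun l _ => xop_apply _ l (w l) (sub_add_cancel (k + d m) (d l)))
  refine ⟨fun l => Pi.single (k - d l) (w' l), fun l _ => single_mem _ _, ?_⟩
  refine gsub_ext hy (AddSubgroup.sum_mem _ fun l _ => ?_) ?_
  · have := XH_mem (x := x) (C := C) l (k - d l) _ (single_mem (H := HH C P) (k - d l) (w' l))
    rwa [sub_add_cancel] at this
  · rw [hw', Finset.sum_apply]
    refine Finset.sum_congr rfl fun l _ => ?_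
    rw [xop_apply _ l _ (sub_add_cancel k (d l))]
    beta_reduce
    rw [Pi.single_eq_same]

/-- exactness on the homotopy modulo `p` -/
theorem pexact (H : PHyp p C x) {n : ℤ} {c : ℕ} {Z W V : 𝒯}
    {𝔽 : FreeOn p C P d n (c + 1 + 1) Z}
    {𝔾 : FreeOn p C P d n (c + 1) W} {𝔼 : FreeOn p C P d n c V} {D : Z ⟶ W} {D' : W ⟶ V}
    (h : IsKos x 𝔽 𝔾 D) (h' : IsKos x 𝔾 𝔼 D') (k : ℤ) (y : HH C W k) (hy : y ≫ D' ▷ C = 0) :
    ∃ z : HH C Z k, z ≫ D ▷ C = y := by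
  obtain ⟨m, z, hz, hyz⟩ := 𝔾.gen k y
  have hG : ∀ J, k - (dI d J + n) = k - n - dI d J := fun J => by ring
  have h1 : ∀ J ∈ pws c m, bd (XH x C) m z J = 0 := by
    intro J hJ
    have h2 := 𝔼.indep k m (bd (XH x C) m z) (by rw [← h'.pair, ← hyz, hy]) J hJ
    exact gsub_ext (k := k - (dI d J + n)) (bd_mem XH_mem fun l _ => hz (insert l J))
      (zero_mem _) h2
  obtain ⟨z', hz', hbz⟩ := claimB (X := XH x C) (G := gsub (HH C P)) (d := d) XH_mem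
    (XH_comm H.comm C) (preg' H) c m (k - n) z (fun I _ _ => by
      rw [← hG]
      exact hz I) (fun J hJ hJc => h1 J (mem_pws.2 ⟨hJ, by omega⟩))
  refine ⟨∑ I ∈ pws (c + 1 + 1) m, pair k (z' I) (𝔽.ι I), ?_⟩
  rw [h.pair, hyz]
  refine Finset.sum_congr rfl fun I hI => ?_
  rw [hbz I (mem_pws.1 hI).1 (mem_pws.1 hI).2]

section tri

variable {X Y Z : 𝒯} {a : X ⟶ Y} {b : Y ⟶ Z} {c : Z ⟶ X⟦(1 : ℤ)⟧}
  (h : Triangle.mk a b c ∈ distTriang 𝒯)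

include h

theorem eq_zero_of_next {k : ℤ} (hz : ∀ z : (𝟙_ 𝒯)⟦k + 1⟧ ⟶ Z ⊗ C, z = 0)
    (x : (𝟙_ 𝒯)⟦k⟧ ⟶ X ⊗ C) (hx : x ≫ a ▷ C = 0) : x = 0 := by
  obtain ⟨g, hg⟩ : ∃ g : ((𝟙_ 𝒯)⟦k⟧)⟦(1 : ℤ)⟧ ⟶ Z ⊗ C,
      x⟦(1 : ℤ)⟧' = g ≫ c ▷ C ≫ (shT X C).hom :=
    Triangle.coyoneda_exact₁ _ (dist_tensor h C) (x⟦(1 : ℤ)⟧') (by
      change x⟦(1 : ℤ)⟧' ≫ (a ▷ C)⟦(1 : ℤ)⟧' = 0
      rw [← Functor.map_comp, hx, Functor.map_zero])
  have h1 : g = 0 := by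
    have h2 := hz ((sphS k).inv ≫ g)
    rw [← cancel_epi (sphS k).inv, h2, comp_zero]
  have h3 : (shiftFunctor 𝒯 (1 : ℤ)).map x = (shiftFunctor 𝒯 (1 : ℤ)).map 0 := by
    rw [hg, h1, zero_comp, Functor.map_zero]
  exact (shiftFunctor 𝒯 (1 : ℤ)).map_injective h3

end tri

/-- **(E3-1)** -/
theorem homEx (H : PHyp p C x) : HomEx p C x := by
  intro n c Z W V 𝔽 𝔾 𝔼 D D' h h' k f hf
  by_cases hk : Odd (n - k)
  · refine ⟨0, ?_⟩
    rw [zero_comp]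
    exact (eq_zero_of_par H.par 𝔾.pc (𝔾.conc H.even H.cP) hk f).symm
  · obtain ⟨K, u, δ, hK⟩ := distinguished_cocone_triangle₁ D'
    obtain ⟨f', hf'⟩ : ∃ f' : P⟦k⟧ ⟶ K, f = f' ≫ u := Triangle.coyoneda_exact₂ _ hK f hf
    obtain ⟨κ, hκ⟩ : ∃ κ : Z ⟶ K, D = κ ≫ u :=
      Triangle.coyoneda_exact₂ _ hK D (h.comp_zero H.comm h')
    obtain ⟨N, j, ε, hN⟩ := distinguished_cocone_triangle κ
    have hc : Conc C (n + 1) N := by
      intro i hi y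
      obtain ⟨w, rfl⟩ := exists_of_comp_zero hN y ((𝔽.conc H.even H.cP).shift i hi _)
      obtain ⟨z, hz⟩ := pexact H h h' i (w ≫ u ▷ C) (by
        rw [Category.assoc, comp_zero₁₂ hK, comp_zero])
      have h1 : w - z ≫ κ ▷ C = 0 := by
        refine eq_zero_of_next hK (fun v => 𝔼.conc H.even H.cP (i + 1) ?_ v) _ ?_
        · obtain ⟨r, hr⟩ := hi
          exact ⟨r + 1, by linarith⟩
        · rw [Preadditive.sub_comp, Category.assoc, ← comp_whiskerRight, ← hκ, hz, sub_self]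
      rw [sub_eq_zero.1 h1, Category.assoc, comp_zero₁₂ hN, comp_zero]
    have h1 : f' ≫ j = 0 := by
      refine eq_zero_of_par H.par (PComplete.ext₃ _ hN 𝔽.pc (PComplete.ext₁ _ hK 𝔾.pc 𝔼.pc)) hc
        ?_ _
      rw [Int.not_odd_iff_even] at hk
      obtain ⟨r, hr⟩ := hk
      exact ⟨r, by linarith⟩
    obtain ⟨g, hg⟩ : ∃ g : P⟦k⟧ ⟶ Z, f' = g ≫ κ := Triangle.coyoneda_exact₂ _ hN f' h1
    exact ⟨g, by rw [hκ, ← Category.assoc, ← hg, ← hf']⟩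

end Vale.Agent.P221.T.H520
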