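import Vale.Agent.P221.T.H520.Tow2

/-!
# P221, part (E3-3): the Koszul resolution, vanishing of the obstruction

* `KR` : the completed free objects `Z n` (on the sets with `n + 1` elements, shifted by `n`) and the
  Koszul differentials;
* `KR.correct` : the lift of a differential to a stage of the tower may be chosen such that the next
  lift exists.
-/

open CategoryTheory MonoidalCategory Limits Pretriangulated
open Vale.Agent.P251.T Vale.Agent.P251.S Vale.Agent.P221.H395 Vale.Agent.P221.T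
open Vale.Agent.P221.H903

set_option linter.unusedSectionVars false

universe v u

namespace Vale.Agent.P221.T.H520

variable {𝒯 : Type u} [Category.{0} 𝒯] [Preadditive 𝒯] [HasZeroObject 𝒯]
    [HasShift 𝒯 ℤ] [∀ n : ℤ, (shiftFunctor 𝒯 n).Additive] [Pretriangulated 𝒯] [IsTriangulated 𝒯]
    [MonoidalCategory 𝒯] [SymmetricCategory 𝒯] [TensorTriangulated 𝒯] [MonoidalClosed 𝒯]
    [HasCoproducts.{0} 𝒯] [HasProducts.{0} 𝒯] [StableCat 𝒯]

variable {P : 𝒯} {d : ℕ → ℤ}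

theorem postc_postc {Y Y' Y'' : 𝒯} (f : Y ⟶ Y') (g : Y' ⟶ Y'') (a : ∀ e, GM P Y e) :
    postc P g (postc P f a) = postc P (f ≫ g) a := by
  funext e
  change (a e ≫ f) ≫ g = a e ≫ f ≫ g
  rw [Category.assoc]

theorem postc_sub {Y Y' : 𝒯} (f g : Y ⟶ Y') (a : ∀ e, GM P Y e) :
    postc P (f - g) a = postc P f a - postc P g a := by
  funext e
  change a e ≫ (f - g) = a e ≫ f - a e ≫ g
  rw [Preadditive.comp_sub]

theorem postc_shc {Y Y' : 𝒯} (f : Y ⟶ Y') (a : ∀ e, GM P Y e) :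
    postc P (f⟦(1 : ℤ)⟧') (shc P Y a) = shc P Y' (postc P f a) := by
  funext e
  have h5 : 1 + (e - 1) = e := by ring
  change gc h5 (a (e - 1)) (𝟙 _) ≫ f⟦(1 : ℤ)⟧' = gc h5 (a (e - 1) ≫ f) (𝟙 _)
  rw [← gc_comp, Category.id_comp, gc_map, Category.comp_id]

/-- The resolution. -/
structure KR (p : ℕ) (C : 𝒯) (x : ∀ l, P⟦d l⟧ ⟶ P) (hP : PComplete p P) where
  /-- the terms -/
  Z : ℕ → 𝒯
  /-- they are free -/
  𝔽 : ∀ n, FreeOn p C P d (sN n) (n + 1) (Z n)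
  /-- the first differential -/
  D₀ : Z 0 ⟶ P
  hD₀ : IsKos x (n := 0) (c := 0) (𝔽 0) (freeOn_self hP) D₀
  /-- the differentials -/
  D : ∀ n, Z (n + 1) ⟶ (Z n)⟦(1 : ℤ)⟧
  hD : ∀ n, IsKos x (𝔽 (n + 1)) (𝔽 n).shift (D n)

theorem exists_KR {p : ℕ} {C : 𝒯} (hC : ∃ (i : 𝟙_ 𝒯 ⟶ C) (δ : C ⟶ (𝟙_ 𝒯)⟦(1 : ℤ)⟧),
      Triangle.mk ((p : ℤ) • 𝟙 (𝟙_ 𝒯)) i δ ∈ distTriang 𝒯) (x : ∀ l, P⟦d l⟧ ⟶ P)
    (hP : PComplete p P) : Nonempty (KR p C x hP) := by
  choose Z hZ using fun n : ℕ => exists_freeOn hC P d (sN n) (n + 1)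
  have 𝔽 : ∀ n, FreeOn p C P d (sN n) (n + 1) (Z n) := fun n => (hZ n).some
  obtain ⟨D₀, hD₀⟩ : ∃ D₀ : Z 0 ⟶ P, IsKos x (n := 0) (c := 0) (𝔽 0) (freeOn_self hP) D₀ :=
    exists_kos x _ _
  choose D hD using fun n => exists_kos x (𝔽 (n + 1)) (𝔽 n).shift
  exact ⟨⟨Z, 𝔽, D₀, hD₀, D, hD⟩⟩

namespace KR

variable {p : ℕ} {C : 𝒯} {x : ∀ l, P⟦d l⟧ ⟶ P} {hP : PComplete p P} (K : KR p C x hP)

/-- the targets of the differentials -/
def Φ : ℕ → 𝒯
  | 0 => P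
  | n + 1 => (K.Z n)⟦(1 : ℤ)⟧

/-- all differentials -/
def Dd : ∀ n, K.Z n ⟶ K.Φ n
  | 0 => K.D₀
  | n + 1 => K.D n

theorem D_Dd (hx : XComm x) : ∀ n, K.D n ≫ (K.Dd n)⟦(1 : ℤ)⟧' = 0
  | 0 => (K.hD 0).comp_zero hx K.hD₀.shift
  | n + 1 => (K.hD (n + 1)).comp_zero hx (K.hD n).shift

theorem nul_of (N : ℕ) {L : 𝒯} (hL : PComplete p L) (κ : K.Z N ⟶ L)
    (h : ∀ I : Finset ℕ, I.card = N + 1 + 1 →
      cob (XC x L) (fun J => postc P κ ((K.𝔽 N).tot J)) I = 0) :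
    K.D N ≫ κ⟦(1 : ℤ)⟧' = 0 := by
  refine (K.𝔽 (N + 1)).uniq (hL.shift 1) _ fun I hI => ?_
  rw [← Category.assoc, K.hD N I hI]
  have h1 : postc P (κ⟦(1 : ℤ)⟧') (cob (XC x _) (K.𝔽 N).shift.tot I) = 0 := by
    rw [map_cob (postc P (κ⟦(1 : ℤ)⟧')) (fun l a => postc_XC _ l a)]
    have h2 : (fun J => postc P (κ⟦(1 : ℤ)⟧') ((K.𝔽 N).shift.tot J)) =
        fun J => shc P L (postc P κ ((K.𝔽 N).tot J)) := by
      funext J
      rw [(K.𝔽 N).tot_shift, postc_shc]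
    rw [h2, ← map_cob (shc P L) (fun l a => shc_XC l a), h I hI, map_zero]
  exact congrFun h1 _

/-- **the obstruction vanishes after a change of the lift** -/
theorem correct (H : PHyp p C x) (hH : H1P p C x H.pP) (K : KR p C x H.pP) (m : ℕ) {L : 𝒯}
    (hL : PComplete p L)
    (i : P ⟶ L) (u : L ⟶ (K.Z m)⟦(1 : ℤ)⟧) (iu : i ≫ u = 0) (D0i : K.D₀ ≫ i = 0)
    (hI : ∀ (k : ℤ) (a : P⟦k⟧ ⟶ L), a ≫ u = 0 → ∃ α : P⟦k⟧ ⟶ P, α ≫ i = a)
    (hJ : ∀ (k : ℤ) (α : P⟦k⟧ ⟶ P), α ≫ i = 0 → ∃ β : P⟦k⟧ ⟶ K.Z 0, β ≫ K.D₀ = α)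
    (κ' : K.Z (m + 1) ⟶ L) (hκ' : κ' ≫ u = K.D m) :
    ∃ κ : K.Z (m + 1) ⟶ L, κ ≫ u = K.D m ∧ K.D (m + 1) ≫ κ⟦(1 : ℤ)⟧' = 0 := by
  set ψ : Finset ℕ → ∀ e, GM P L e := fun J => postc P κ' ((K.𝔽 (m + 1)).tot J) with hψ
  have hψm : ∀ J, ψ J ∈ gsub (GM P L) (dI d J + sN (m + 1)) := fun J =>
    postc_mem κ' ((K.𝔽 (m + 1)).tot_mem J)
  have ham : ∀ I, cob (XC x L) ψ I ∈ gsub (GM P L) (dI d I + sN (m + 1)) := fun I =>
    cob_mem XC_mem fun l _ => hψm _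
  have hau : ∀ I : Finset ℕ, I.card = m + 1 + 1 + 1 → postc P u (cob (XC x L) ψ I) = 0 := by
    intro I hI
    rw [map_cob (postc P u) (fun l a => postc_XC u l a),
      cob_congr (φ' := cob (XC x _) (K.𝔽 m).shift.tot), cob_cob (XC_comm H.comm _)]
    intro l hl
    rw [hψ]
    beta_reduce
    rw [postc_postc, hκ']
    exact (K.hD m).postc_tot (by rw [Finset.card_erase_of_mem hl, hI]; rfl)
  have key : ∀ I : Finset ℕ, ∃ α ∈ gsub (GM P P) (sN (m + 1) + dI d I),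
      I.card = m + 1 + 1 + 1 → postc P i α = cob (XC x L) ψ I := by
    intro I
    by_cases hc : I.card = m + 1 + 1 + 1
    · obtain ⟨α, hα⟩ := hI (dI d I + sN (m + 1)) (cob (XC x L) ψ I _)
        (congrFun (hau I hc) (dI d I + sN (m + 1)))
      refine ⟨Pi.single (dI d I + sN (m + 1)) α, ?_, fun _ => ?_⟩
      · rw [add_comm (sN (m + 1))]
        exact single_mem _ _
      · refine gsub_ext (postc_mem i (single_mem _ _)) (ham I) ?_
        change Pi.single (M := GM P P) (dI d I + sN (m + 1)) α (dI d I + sN (m + 1)) ≫ i = _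
        rw [Pi.single_eq_same, hα]
    · exact ⟨0, zero_mem _, fun h => absurd h hc⟩
  choose α hα hα' using key
  obtain ⟨γ, hγ, hγα⟩ := exists_cob H hH K.hD₀ (s := m + 1) (c := sN (m + 1)) (sN_nonneg _)
    (α := α) (fun I _ => hα I) (fun I hI e => by
      refine hJ e _ ?_
      have h1 : postc P i (cob (XC x P) α I) = 0 := by
        rw [map_cob (postc P i) (fun l a => postc_XC i l a),
          cob_congr (φ' := cob (XC x L) ψ), cob_cob (XC_comm H.comm _)]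
        intro l hl
        exact hα' _ (by rw [Finset.card_erase_of_mem hl, hI]; rfl)
      exact congrFun h1 e)
  obtain ⟨g, hg⟩ := (K.𝔽 (m + 1)).desc hL (fun J => γ J (dI d J + sN (m + 1)) ≫ i)
  have hgt : ∀ J : Finset ℕ, J.card = m + 1 + 1 →
      postc P g ((K.𝔽 (m + 1)).tot J) = postc P i (γ J) := by
    intro J hJ
    refine gsub_ext (k := dI d J + sN (m + 1)) (postc_mem g ((K.𝔽 (m + 1)).tot_mem J))
      (postc_mem i ?_) ?_
    · rw [add_comm (dI d J)]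
      exact hγ J hJ
    · change (K.𝔽 (m + 1)).tot J (dI d J + sN (m + 1)) ≫ g = γ J (dI d J + sN (m + 1)) ≫ i
      rw [FreeOn.tot_same, hg J hJ]
  have gu : g ≫ u = 0 := by
    refine (K.𝔽 (m + 1)).uniq ((K.𝔽 m).pc.shift 1) _ fun J hJ => ?_
    rw [← Category.assoc, hg J hJ, Category.assoc, iu, comp_zero]
  refine ⟨κ' - g, by rw [Preadditive.sub_comp, hκ', gu, sub_zero], K.nul_of (m + 1) hL _
    fun I hI => ?_⟩
  have h1 : (fun J => postc P (κ' - g) ((K.𝔽 (m + 1)).tot J)) =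
      fun J => ψ J - postc P g ((K.𝔽 (m + 1)).tot J) := by
    funext J
    rw [postc_sub]
  have h2 : cob (XC x L) (fun J => postc P g ((K.𝔽 (m + 1)).tot J)) I =
      postc P i (cob (XC x P) γ I) := by
    rw [map_cob (postc P i) (fun l a => postc_XC i l a)]
    refine cob_congr _ fun l hl => hgt _ ?_
    rw [Finset.card_erase_of_mem hl, hI]
    rfl
  rw [h1, cob_sub, h2, ← hα' I hI]
  funext e
  change α I e ≫ i - cob (XC x P) γ I e ≫ i = 0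
  obtain ⟨f, hf⟩ := hγα I hI e
  rw [← Preadditive.sub_comp, ← neg_sub, ← hf, Preadditive.neg_comp, Category.assoc, D0i,
    comp_zero, neg_zero]

end KR

end Vale.Agent.P221.T.H520
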