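import Vale.Agent.P221.T.H520.Tow1
import Vale.Agent.P221.T.H520.Tow3
import Vale.Agent.P221.T.H520.E31

/-!
# P221, part (E3-3): the tower and its telescope

`specTow` : the quotient `q : P ⟶ B` of `P` by the regular sequence `x`.
-/

open CategoryTheory MonoidalCategory Limits Pretriangulated
open Vale.Agent.P251.T Vale.Agent.P251.S Vale.Agent.P221.H395 Vale.Agent.P221.T
open Vale.Agent.P221.H903

set_option linter.unusedSectionVars false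

universe v u

namespace Vale.Agent.P221.T.H520

variable {𝒯 : Type u} [Category.{0} 𝒯] [Preadditive 𝒯] [HasZeroObject 𝒯]
    [HasShift 𝒯 ℤ] [∀ n : ℤ, (shiftFunctor 𝒯 n).Additive] [Pretriangulated 𝒯] [IsTriangulated 𝒯]
    [MonoidalCategory 𝒯] [SymmetricCategory 𝒯] [TensorTriangulated 𝒯] [MonoidalClosed 𝒯]
    [HasCoproducts.{0} 𝒯] [HasProducts.{0} 𝒯] [StableCat 𝒯]

/-- the shifts of `P` -/
def Qs (P A : 𝒯) : Prop := ∃ k : ℤ, Nonempty (A ≅ P⟦k⟧)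

theorem Qs.shift {P : 𝒯} : ∀ A : 𝒯, Qs P A → Qs P (A⟦(1 : ℤ)⟧) := by
  rintro A ⟨k, ⟨e⟩⟩
  exact ⟨k + 1, ⟨(shiftFunctor 𝒯 (1 : ℤ)).mapIso e ≪≫
    ((shiftFunctorAdd' 𝒯 k 1 (k + 1) rfl).app P).symm⟩⟩

theorem ex_of (F : 𝒯 ⥤ 𝒯) {P X Y Z : 𝒯} {f : X ⟶ Y} {g : Y ⟶ Z}
    (h : ∀ (k : ℤ) (y : P⟦k⟧ ⟶ F.obj Y), y ≫ F.map g = 0 → ∃ z : P⟦k⟧ ⟶ F.obj X, z ≫ F.map f = y) :
    Ex F (Qs P) f g := by
  rintro A ⟨k, ⟨e⟩⟩ y hy
  obtain ⟨z, hz⟩ := h k (e.inv ≫ y) (by rw [Category.assoc, hy, comp_zero])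
  exact ⟨e.hom ≫ z, by rw [Category.assoc, hz, Iso.hom_inv_id_assoc]⟩

variable {p : ℕ} {C P : 𝒯} {d : ℕ → ℤ} {x : ∀ l, P⟦d l⟧ ⟶ P}

theorem KR.exP (H : PHyp p C x) (hE : HomEx p C x) (K : KR p C x H.pP) :
    ∀ n, Ex (𝟭 𝒯) (Qs P) (K.D n) ((K.Dd n)⟦(1 : ℤ)⟧')
  | 0 => ex_of _ fun k y hy => hE _ _ _ _ _ (K.𝔽 1) (K.𝔽 0).shift (freeOn_self H.pP).shift
      (K.D 0) (K.D₀⟦(1 : ℤ)⟧') (K.hD 0) K.hD₀.shift k y hy
  | n + 1 => ex_of _ fun k y hy => hE _ _ _ _ _ (K.𝔽 (n + 2)) (K.𝔽 (n + 1)).shift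
      (K.𝔽 n).shift.shift (K.D (n + 1)) ((K.D n)⟦(1 : ℤ)⟧') (K.hD (n + 1)) (K.hD n).shift k y hy

theorem KR.exS (H : PHyp p C x) (K : KR p C x H.pP) :
    ∀ n, Ex (tensorRight C) (Qs (𝟙_ 𝒯)) (K.D n) ((K.Dd n)⟦(1 : ℤ)⟧')
  | 0 => ex_of _ fun k y hy => pexact H (K.hD 0) K.hD₀.shift k y hy
  | n + 1 => ex_of _ fun k y hy => pexact H (K.hD (n + 1)) (K.hD n).shift k y hy

/-- a stage of the tower -/
structure TS {hP : PComplete p P} (K : KR p C x hP) (n : ℕ) where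
  /-- the object -/
  L : 𝒯
  /-- the map from `P` -/
  i : P ⟶ L
  /-- the map to the resolution -/
  u : L ⟶ (K.Z n)⟦(1 : ℤ)⟧
  /-- the map from the resolution -/
  κ : K.Z (n + 1) ⟶ L
  pc : PComplete p L
  hκ : κ ≫ u = K.D n
  nul : K.D (n + 1) ≫ κ⟦(1 : ℤ)⟧' = 0
  iu : i ≫ u = 0
  D0i : K.D₀ ≫ i = 0
  uD : u ≫ (K.Dd n)⟦(1 : ℤ)⟧' = 0
  I : Ex (𝟭 𝒯) (Qs P) i u
  J : Ex (𝟭 𝒯) (Qs P) K.D₀ i
  I' : Ex (tensorRight C) (Qs (𝟙_ 𝒯)) i u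
  J' : Ex (tensorRight C) (Qs (𝟙_ 𝒯)) K.D₀ i

/-- lifting along the connecting map -/
theorem exists_lift_δ {X Y Z A : 𝒯} {f : X ⟶ Y} {g : Y ⟶ Z} {h : Z ⟶ X⟦(1 : ℤ)⟧}
    (H : Triangle.mk f g h ∈ distTriang 𝒯) (a : A ⟶ X⟦(1 : ℤ)⟧) (ha : a ≫ f⟦(1 : ℤ)⟧' = 0) :
    ∃ b : A ⟶ Z, b ≫ h = a := by
  obtain ⟨b, hb⟩ : ∃ b : A ⟶ Z, a = b ≫ h :=
    Triangle.coyoneda_exact₃ _ (rot_of_distTriang _ H) a (by
      change a ≫ (-f⟦(1 : ℤ)⟧') = 0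
      rw [Preadditive.comp_neg, ha, neg_zero])
  exact ⟨b, hb.symm⟩

theorem exists_TS0 (H : PHyp p C x) (hH : H1P p C x H.pP) (K : KR p C x H.pP) :
    Nonempty (TS K 0) := by
  obtain ⟨L, i, u, h⟩ := distinguished_cocone_triangle K.D₀
  have D0i : K.D₀ ≫ i = 0 := comp_distTriang_mor_zero₁₂ _ h
  have iu : i ≫ u = 0 := comp_distTriang_mor_zero₂₃ _ h
  have uD : u ≫ K.D₀⟦(1 : ℤ)⟧' = 0 := comp_distTriang_mor_zero₃₁ _ h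
  have hL : PComplete p L := PComplete.ext₃ _ h (K.𝔽 0).pc H.pP
  obtain ⟨κ', hκ'⟩ := exists_lift_δ h (K.D 0) (K.D_Dd H.comm 0)
  obtain ⟨κ, hκ, nul⟩ := KR.correct H hH K 0 hL i u iu D0i
    (fun k a ha => ex_dist₃ (𝟭 𝒯) (Qs P) h _ ⟨k, ⟨Iso.refl _⟩⟩ a ha)
    (fun k a ha => ex_dist₂ (𝟭 𝒯) (Qs P) h _ ⟨k, ⟨Iso.refl _⟩⟩ a ha) κ' hκ'
  exact ⟨⟨L, i, u, κ, hL, hκ, nul, iu, D0i, uD, ex_dist₃ _ _ h, ex_dist₂ _ _ h, ex_dist₃ _ _ h,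
    ex_dist₂ _ _ h⟩⟩

theorem TS.exists_succ (H : PHyp p C x) (hE : HomEx p C x) (hH : H1P p C x H.pP)
    (K : KR p C x H.pP) {n : ℕ} (S : TS K n) :
    ∃ (S' : TS K (n + 1)) (j : S.L ⟶ S'.L), S.i ≫ j = S'.i ∧ j ≫ S'.u = 0 := by
  obtain ⟨L', j, u', h⟩ := distinguished_cocone_triangle S.κ
  have κj : S.κ ≫ j = 0 := comp_distTriang_mor_zero₁₂ _ h
  have ju : j ≫ u' = 0 := comp_distTriang_mor_zero₂₃ _ h
  have uκ : u' ≫ S.κ⟦(1 : ℤ)⟧' = 0 := comp_distTriang_mor_zero₃₁ _ h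
  have uD : u' ≫ (K.D n)⟦(1 : ℤ)⟧' = 0 := by
    rw [← S.hκ, Functor.map_comp, ← Category.assoc, uκ, zero_comp]
  have iu : (S.i ≫ j) ≫ u' = 0 := by rw [Category.assoc, ju, comp_zero]
  have D0i : K.D₀ ≫ S.i ≫ j = 0 := by rw [← Category.assoc, S.D0i, zero_comp]
  have hL : PComplete p L' := PComplete.ext₃ _ h (K.𝔽 (n + 1)).pc S.pc
  have hI : Ex (𝟭 𝒯) (Qs P) (S.i ≫ j) u' := step_I S.I (K.exP H hE n) S.hκ S.uD h
  have hJ : Ex (𝟭 𝒯) (Qs P) K.D₀ (S.i ≫ j) :=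
    step_J Qs.shift S.J (K.exP H hE (n + 1)) S.hκ S.iu S.nul h
  have hI' : Ex (tensorRight C) (Qs (𝟙_ 𝒯)) (S.i ≫ j) u' :=
    step_I S.I' (K.exS H n) S.hκ S.uD h
  have hJ' : Ex (tensorRight C) (Qs (𝟙_ 𝒯)) K.D₀ (S.i ≫ j) :=
    step_J Qs.shift S.J' (K.exS H (n + 1)) S.hκ S.iu S.nul h
  obtain ⟨κ', hκ'⟩ := exists_lift_δ h (K.D (n + 1)) S.nul
  obtain ⟨κ, hκ, nul⟩ := KR.correct H hH K (n + 1) hL (S.i ≫ j) u' iu D0i
    (fun k a ha => hI _ ⟨k, ⟨Iso.refl _⟩⟩ a ha) (fun k a ha => hJ _ ⟨k, ⟨Iso.refl _⟩⟩ a ha) κ' hκ'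
  exact ⟨⟨L', S.i ≫ j, u', κ, hL, hκ, nul, iu, D0i, uD, hI, hJ, hI', hJ'⟩, j, rfl, ju⟩

/-- all stages -/
theorem exists_TS (H : PHyp p C x) (hE : HomEx p C x) (hH : H1P p C x H.pP)
    (K : KR p C x H.pP) : ∃ (S : ∀ n, TS K n) (j : ∀ n, (S n).L ⟶ (S (n + 1)).L),
      ∀ n, (S n).i ≫ j n = (S (n + 1)).i ∧ j n ≫ (S (n + 1)).u = 0 := by
  obtain ⟨S0⟩ := exists_TS0 H hH K
  choose nx j hj using fun n (S : TS K n) => S.exists_succ H hE hH K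
  let S : ∀ n, TS K n := fun n => Nat.rec S0 (fun n S => nx n S) n
  exact ⟨S, fun n => j n (S n), fun n => hj n (S n)⟩

/-- the image of the first differential on the homotopy modulo `p` -/
theorem KR.exists_xh {hP : PComplete p P} (K : KR p C x hP) (k : ℤ) (β : HH C (K.Z 0) k) :
    ∃ (m : ℕ) (w : ∀ l, HH C P (k - d l)), β ≫ K.D₀ ▷ C =
      ∑ l ∈ Finset.range m, xh x C l (sub_add_cancel k (d l)) (w l) := by
  obtain ⟨m, z, hz, rfl⟩ := (K.𝔽 0).gen k β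
  refine ⟨m, fun l => z {l} (k - d l), ?_⟩
  have h1 := K.hD₀.pair k m z
  refine h1.trans ?_
  rw [pws_zero, Finset.sum_singleton, freeOn_self_ι, pair_zero_shift, bd, Finset.sdiff_empty,
    Finset.sum_apply]
  refine Finset.sum_congr rfl fun l _ => ?_
  rw [insert_empty_eq, sg_singleton, one_smul, xop_apply _ l _ (sub_add_cancel k (d l))]

theorem x_comp_eq_zero {hP : PComplete p P} (K : KR p C x hP) {Y : 𝒯} (α : P ⟶ Y)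
    (hα : K.D₀ ≫ α = 0) (l : ℕ) : x l ≫ α = 0 := by
  have hI : ({l} : Finset ℕ).card = 0 + 1 := Finset.card_singleton l
  have h0 : dI d ∅ + 0 + d l = dI d {l} + 0 := by
    rw [dI_empty, dI, Finset.sum_singleton]
    ring
  have h1 : ((K.𝔽 0).ι {l} ≫ K.D₀) ≫ α = 0 := by rw [Category.assoc, hα, comp_zero]
  replace h1 := (congrArg (fun f => f ≫ α) (K.hD₀ {l} hI)).symm.trans h1
  beta_reduce at h1
  rw [cob, Finset.sum_singleton, Pi.smul_apply, Finset.erase_singleton,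
    xop_apply _ l _ h0, FreeOn.tot_same, sg_singleton, one_smul, freeOn_self_ι, xc_apply,
    ← gc_comp] at h1
  have h2 : (shiftFunctorZero' 𝒯 (dI d ∅ + 0) (by rw [add_zero, dI_empty])).hom.app P ≫ α =
      α⟦dI d ∅ + 0⟧' ≫ (shiftFunctorZero' 𝒯 (dI d ∅ + 0) (by rw [add_zero, dI_empty])).hom.app Y :=
    ((shiftFunctorZero' 𝒯 (dI d ∅ + 0) (by rw [add_zero, dI_empty])).hom.naturality α).symm
  rw [h2, ← gc_map, gc_eq] at h1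
  refine gc_inj h0 ?_
  rw [gc_zero_left]
  exact (cancel_mono _).1 (h1.trans zero_comp.symm)

/-- **(E3-3)** the quotient of `P` by a regular sequence -/
theorem specTow (p : ℕ) (C : 𝒯) : SpecTow p C := by
  rintro ⟨iC, δC, hC⟩ P d x H hE hH
  obtain ⟨K⟩ := exists_KR ⟨iC, δC, hC⟩ x H.pP
  obtain ⟨S, j, hj⟩ := exists_TS H hE hH K
  obtain ⟨U⟩ := exists_tel (X := fun n => (S n).L) j
  obtain ⟨B, l, hB, hl⟩ := exists_completion hC U.obj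
  have hcpt : ∀ k : ℤ, IsCpt ((𝟙_ 𝒯)⟦k⟧) := fun k I X f => compact_sum X ⟨k, ⟨Iso.refl _⟩⟩ f
  let q₀ : P ⟶ U.obj := (S 0).i ≫ U.ι 0
  have hq₀ : ∀ n, (S n).i ≫ U.ι n = q₀ := by
    intro n
    induction n with
    | zero => rfl
    | succ n ih =>
      have h1 : j n ≫ U.ι (n + 1) = U.ι n := U.w n
      rw [← (hj n).1, Category.assoc, h1, ih]
  have onto₀ : ∀ (k : ℤ) (y : HH C U.obj k), ∃ z : HH C P k, z ≫ q₀ ▷ C = y := by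
    intro k y
    obtain ⟨n, b, hb⟩ := (U.tensR C).exists_factor (hcpt k) y
    change (𝟙_ 𝒯)⟦k⟧ ⟶ (S n).L ⊗ C at b
    change b ≫ U.ι n ▷ C = y at hb
    obtain ⟨α, hα⟩ := (S (n + 1)).I' _ ⟨k, ⟨Iso.refl _⟩⟩ (b ≫ j n ▷ C) (by
      change (b ≫ j n ▷ C) ≫ (S (n + 1)).u ▷ C = 0
      rw [Category.assoc, ← comp_whiskerRight, (hj n).2, MonoidalPreadditive.zero_whiskerRight,
        comp_zero])
    change α ≫ (S (n + 1)).i ▷ C = b ≫ j n ▷ C at hα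
    have h1 : j n ≫ U.ι (n + 1) = U.ι n := U.w n
    refine ⟨α, ?_⟩
    rw [← hq₀ (n + 1), comp_whiskerRight, ← Category.assoc, hα, Category.assoc,
      ← comp_whiskerRight, h1, hb]
  have tr : ∀ m : ℕ, (S 0).i ▷ C ≫ trT (X := fun n => (S n).L ⊗ C) (fun n => j n ▷ C) 0 m =
      (S (0 + m)).i ▷ C := by
    intro m
    induction m with
    | zero => exact Category.comp_id _
    | succ m ih =>
      rw [trT_succ, ← Category.assoc, ih, ← comp_whiskerRight]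
      exact congrArg (fun f => f ▷ C) (hj (0 + m)).1
  have ker₀ : ∀ (k : ℤ) (y : HH C P k), y ≫ q₀ ▷ C = 0 →
      ∃ β : HH C (K.Z 0) k, β ≫ K.D₀ ▷ C = y := by
    intro k y hy
    obtain ⟨m, hm⟩ := (U.tensR C).exists_eq_zero (n := 0) (hcpt k) (y ≫ (S 0).i ▷ C) (by
      change (y ≫ (S 0).i ▷ C) ≫ U.ι 0 ▷ C = 0
      rw [Category.assoc, ← comp_whiskerRight]
      exact hy)
    rw [Category.assoc] at hm
    have h1 : y ≫ (S (0 + m)).i ▷ C = 0 := by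
      rw [← tr m]
      exact hm
    obtain ⟨β, hβ⟩ := (S (0 + m)).J' _ ⟨k, ⟨Iso.refl _⟩⟩ y h1
    exact ⟨β, hβ⟩
  have D0q : K.D₀ ≫ q₀ ≫ l = 0 := by
    change K.D₀ ≫ ((S 0).i ≫ U.ι 0) ≫ l = 0
    rw [← Category.assoc, ← Category.assoc, (S 0).D0i, zero_comp, zero_comp]
  have onto : ∀ (k : ℤ) (y : HH C B k), ∃ z : HH C P k, z ≫ (q₀ ≫ l) ▷ C = y := by
    intro k y
    obtain ⟨z, hz⟩ := onto₀ k (y ≫ inv (l ▷ C))
    exact ⟨z, by rw [comp_whiskerRight, ← Category.assoc, hz, Category.assoc, IsIso.inv_hom_id,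
      Category.comp_id]⟩
  refine ⟨B, q₀ ≫ l, ⟨H.pP, hB, H.comm, H.even, H.nonneg, fun i => x_comp_eq_zero K _ D0q i, H.cP,
    ?_, H.par, onto, ?_, H.reg⟩⟩
  · intro k hk f
    obtain ⟨z, rfl⟩ := onto k f
    rw [H.cP k hk z, zero_comp]
  · intro k y hy
    have h1 : y ≫ q₀ ▷ C = 0 := by
      rw [← cancel_mono (l ▷ C), zero_comp, Category.assoc, ← comp_whiskerRight]
      exact hy
    obtain ⟨β, rfl⟩ := ker₀ k y h1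
    exact K.exists_xh k β

end Vale.Agent.P221.T.H520
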