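import Vale.Agent.P221.T.H520.End
import Vale.Agent.P221.T.Form
import Vale.Agent.P221.T.H509.KKT
import Vale.Agent.P221.T.H769.DCb

/-!
# P221, part T: the field `chi` of `Env`

`chi_of_src` : operations act on the restriction to the unit through `O.χ`, from the clause of
`SpecSrc` on `π_0 P`.
-/

open CategoryTheory MonoidalCategory MonObj Limits Pretriangulated
open Vale.Agent.P251.T Vale.Agent.P251.M Vale.Agent.P251.S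

set_option linter.unusedSectionVars false

universe u

namespace Vale.Agent.P221.T

variable {𝒯 : Type u} [Category.{0} 𝒯] [Preadditive 𝒯] [HasZeroObject 𝒯]
    [HasShift 𝒯 ℤ] [∀ n : ℤ, (shiftFunctor 𝒯 n).Additive] [Pretriangulated 𝒯] [IsTriangulated 𝒯]
    [MonoidalCategory 𝒯] [SymmetricCategory 𝒯] [TensorTriangulated 𝒯] [MonoidalClosed 𝒯]
    [HasCoproducts.{0} 𝒯] [HasProducts.{0} 𝒯] [StableCat 𝒯]

variable {p n : ℕ} [Fact p.Prime] {R P W : 𝒯} [MonObj R] [IsCommMonObj R]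

theorem OpAlg.coeff_zero_eq {ld : Lead p n} {S : Src p n} (O : OpAlg ld S) (γ : S.E 0) :
    MvPolynomial.coeff 0 (O.T 0 γ 1) = MvPolynomial.C (O.χ γ) := by
  have h := O.homog 0 γ 0 0
  rw [dT_zero, add_zero, sub_zero] at h
  have h1 : (MvPolynomial.monomial 0 1 : GG p) = 1 := rfl
  rw [h1] at h
  exact HK_zero_eq_C h

theorem chi_of_src (b : BPS p R P W) {ld : Lead p n} {S : SrcT p n P} (O : OpAlg ld S.src)
    (hu : S.u = η[R] ≫ b.c)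
    (hχ : ∀ (γ : P⟦(0 : ℤ)⟧ ⟶ P), PiM.of P 0 (S.u⟦(0 : ℤ)⟧' ≫ γ) =
      b.kk b.MP b.cP (MvPolynomial.coeff 0 (O.T 0 γ 1)) (PiM.of P 0 (zr 𝒯 ≫ η[R] ≫ b.c)))
    {Y : 𝒯} {m : ℤ} (hY : H395.PComplete p Y) [Module ℤ_[p] ((𝟙_ 𝒯)⟦m⟧ ⟶ Y)]
    (h : m + 0 = m) (a : P⟦m⟧ ⟶ Y) (γ : P⟦(0 : ℤ)⟧ ⟶ P) :
    S.u⟦m⟧' ≫ gc h γ a = O.χ γ • (S.u⟦m⟧' ≫ a) := by
  set y₀ : (𝟙_ 𝒯)⟦(0 : ℤ)⟧ ⟶ P := zr 𝒯 ≫ η[R] ≫ b.c with hy₀
  choose ψ hψ using fun c : ℤ_[p] => b.kk_C b.MP b.cP c y₀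
  have hadd : ∀ c d, ψ (c + d) = ψ c + ψ d := fun c d => by
    apply PiM.of_injective P 0
    rw [← hψ, map_add, map_add, map_add, ← hψ, ← hψ]
    rfl
  have h1 : ψ 1 = y₀ := by
    apply PiM.of_injective P 0
    rw [← hψ, map_one, map_one, AddMonoid.End.coe_one]
    rfl
  let Ψ : ℤ_[p] →+ ((𝟙_ 𝒯)⟦m⟧ ⟶ Y) := AddMonoidHom.mk' (fun c => gc h (ψ c) a) fun c d => by
    rw [hadd, gc_add_left]
  have h2 : gc h y₀ a = S.u⟦m⟧' ≫ a := by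
    rw [hy₀, ← hu]
    exact gc_unit_shift h S.u a
  have h3 : Ψ = AddMonoidHom.flip (smulAddHom ℤ_[p] ((𝟙_ 𝒯)⟦m⟧ ⟶ Y)) (S.u⟦m⟧' ≫ a) := by
    refine H769.hom_ext_one (H769.uniq_of_dc (H509.dc_pi hY _)) ?_
    change gc h (ψ 1) a = (1 : ℤ_[p]) • _
    rw [h1, h2, one_smul]
  have h4 : S.u⟦(0 : ℤ)⟧' ≫ γ = ψ (O.χ γ) := by
    apply PiM.of_injective P 0
    rw [← hψ (O.χ γ)]
    refine (hχ γ).trans ?_
    exact congrArg (fun f => b.kk b.MP b.cP f (PiM.of P 0 y₀)) (O.coeff_zero_eq γ)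
  rw [comp_gc, h4]
  exact DFunLike.congr_fun h3 (O.χ γ)

end Vale.Agent.P221.T
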