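import Vale.Agent.P221.T.H520.TopN
import Vale.Agent.P221.T.H746.IpLem
import Mathlib.RingTheory.Filtration

/-!
# P221, part T: the filtered system of the top homotopy group

`top_fs` : `Y` a system with `ev : A k → Pi k` bijective for `k ≥ m`, `Pi k = 0` for `k > m` and
`Pi m` a finitely generated `ℤ_p`-module.
-/

open MvPolynomial

set_option linter.unusedSectionVars false
set_option linter.unusedVariables false

namespace Vale.Agent.P221.T

open TopN H746

/-! ### finitely generated `ℤ_p`-modules -/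

section nice

variable (p : ℕ) [Fact p.Prime] (G : Type) [AddCommGroup G] [Module ℤ_[p] G] [Module.Finite ℤ_[p] G]

theorem fg_sep (x : G) (hx : ∀ s : ℕ, ∃ y : G, x = (p ^ s) • y) : x = 0 := by
  have h1 := Ideal.iInf_pow_smul_eq_bot_of_isLocalRing (M := G) (IsLocalRing.maximalIdeal ℤ_[p])
    (Ideal.IsPrime.ne_top inferInstance)
  rw [← Submodule.mem_bot ℤ_[p], ← h1, Submodule.mem_iInf]
  intro s
  obtain ⟨y, rfl⟩ := hx s
  have h2 : (p ^ s) • y = ((p : ℤ_[p]) ^ s) • y := by
    rw [← Nat.cast_smul_eq_nsmul ℤ_[p], Nat.cast_pow]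
  rw [h2]
  refine Submodule.smul_mem_smul (Ideal.pow_mem_pow ?_ s) Submodule.mem_top
  rw [PadicInt.maximalIdeal_eq_span_p]
  exact Ideal.mem_span_singleton_self _

theorem fg_cpl (e : ℕ → ℕ) (hmono : Monotone e) (hinf : ∀ N, ∃ i, N ≤ e i) (x : ℕ → G) :
    ∃ b : G, ∀ m, ∃ y : G, b - ∑ i ∈ Finset.range m, (p ^ e i) • x i = (p ^ e m) • y := by
  obtain ⟨r, g, hg⟩ := Module.Finite.exists_fin (R := ℤ_[p]) (M := G)
  have hx : ∀ i, ∃ c : Fin r → ℤ_[p], ∑ j, c j • g j = x i := fun i => by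
    have : x i ∈ Submodule.span ℤ_[p] (Set.range g) := by rw [hg]; exact Submodule.mem_top
    exact (Submodule.mem_span_range_iff_exists_fun ℤ_[p]).1 this
  choose c hc using hx
  have h1 : ∀ j, ∃ L : ℤ_[p], ∀ m, (p : ℤ_[p]) ^ e m ∣
      L - ∑ i ∈ Finset.range m, (p : ℤ_[p]) ^ e i * c i j := fun j =>
    exists_padic_sum p _ e hmono hinf fun i => dvd_mul_right _ _
  choose L hL using h1
  refine ⟨∑ j, L j • g j, fun m => ?_⟩
  choose z hz using fun j => hL j m
  refine ⟨∑ j, z j • g j, ?_⟩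
  have h2 : ∀ (t : ℕ) (y : G), (p ^ t) • y = ((p : ℤ_[p]) ^ t) • y := fun t y => by
    rw [← Nat.cast_smul_eq_nsmul ℤ_[p], Nat.cast_pow]
  have h3 : ∀ j, L j = (∑ i ∈ Finset.range m, (p : ℤ_[p]) ^ e i * c i j) +
      (p : ℤ_[p]) ^ e m * z j := fun j => by
    rw [← hz j]
    ring
  rw [h2, sub_eq_iff_eq_add]
  calc ∑ j, L j • g j = ∑ j, ((∑ i ∈ Finset.range m, (p : ℤ_[p]) ^ e i * c i j) +
        (p : ℤ_[p]) ^ e m * z j) • g j := Finset.sum_congr rfl fun j _ => by rw [← h3 j]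
    _ = ∑ j, ((∑ i ∈ Finset.range m, ((p : ℤ_[p]) ^ e i * c i j) • g j) +
        (p : ℤ_[p]) ^ e m • z j • g j) := Finset.sum_congr rfl fun j _ => by
          rw [add_smul, Finset.sum_smul, mul_smul ((p : ℤ_[p]) ^ e m)]
    _ = _ := by
      rw [Finset.sum_add_distrib, Finset.sum_comm, Finset.smul_sum, add_comm]
      congr 1
      refine Finset.sum_congr rfl fun i _ => ?_
      rw [h2, ← hc i, Finset.smul_sum]
      exact Finset.sum_congr rfl fun j _ => by rw [mul_smul]

end nice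

namespace TopN

section cl

variable (p : ℕ) [Fact p.Prime] {G : Type} [AddCommGroup G]

theorem el_neg (s : ℕ) (g : G) : el p s (-g) = -el p s g := by
  have h := el_add p s g (-g)
  rw [add_neg_cancel, el_zero] at h
  exact (neg_eq_of_add_eq_zero_right h.symm).symm

open Classical in
/-- the class of an element of `p^s G` -/
noncomputable def cl (s : ℕ) (g : G) : NN p G := if h : ∃ g', g = (p ^ s) • g' then el p s h.choose else 0

theorem cl_smul (s : ℕ) (g : G) : cl p s ((p ^ s) • g) = el p s g := by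
  have h : ∃ g', (p ^ s) • g = (p ^ s) • g' := ⟨g, rfl⟩
  unfold cl
  rw [dif_pos h, ← sub_eq_zero, sub_eq_add_neg, ← el_neg, ← el_add, el_eq_zero_iff]
  exact ⟨0, by rw [smul_add, smul_neg, ← h.choose_spec, add_neg_cancel, smul_zero]⟩

theorem cl_eq_zero_iff (s : ℕ) {g : G} (hg : ∃ g', g = (p ^ s) • g') :
    cl p s g = 0 ↔ ∃ g', g = (p ^ (s + 1)) • g' := by
  obtain ⟨g', rfl⟩ := hg
  rw [cl_smul, el_eq_zero_iff]
  exact Iff.rfl

end cl

end TopN

/-! ### the operations of degree `0` -/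

section chi

variable {p : ℕ} [Fact p.Prime] {n : ℕ} {ld : Lead p n} {S : Src p n}

/-- the degree `0` part of an operation -/
noncomputable def OpAlg.χ (O : OpAlg ld S) (γ : S.E 0) : ℤ_[p] :=
  constantCoeff (coeff 0 (O.T 0 γ 1))

theorem dT_zero : dT p (0 : ℕ →₀ ℕ) = 0 := by simp [dT]

theorem dT_nonneg (E : ℕ →₀ ℕ) : 0 ≤ dT p E := by
  unfold dT
  rw [Finsupp.weight_apply]
  exact Finsupp.sum_nonneg fun j _ => smul_nonneg (Nat.zero_le _) (H746.sV_nonneg p _)

theorem dT_pos {E : ℕ →₀ ℕ} (hE : E ≠ 0) : 0 < dT p E := by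
  obtain ⟨j, hj⟩ : ∃ j, E j ≠ 0 := by
    by_contra h
    push Not at h
    exact hE (Finsupp.ext h)
  unfold dT
  rw [Finsupp.weight_apply]
  have h1 : (E j) • sV p (j + 1) ≤ E.sum fun i c => c • sV p (i + 1) :=
    Finset.single_le_sum (f := fun i => E i • sV p (i + 1))
      (fun i _ => smul_nonneg (Nat.zero_le _) (H746.sV_nonneg p _)) (Finsupp.mem_support_iff.2 hj)
  have h2 : 0 < (E j) • sV p (j + 1) := by
    rw [nsmul_eq_mul]
    exact mul_pos (by exact_mod_cast Nat.pos_of_ne_zero hj) (H746.sV_pos p j)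
  exact h2.trans_le h1

theorem HK_zero_eq_C {f : KK p} (hf : HK p 0 f) : f = C (constantCoeff f) := by
  ext E
  rw [coeff_C]
  split_ifs with h
  · rw [← h]
    rfl
  · by_contra hE
    have h1 : Finsupp.weight (fun i => sV p (i + 1)) E = 0 := hf hE
    have h2 := dT_pos (p := p) (Ne.symm h)
    unfold dT at h2
    omega

theorem OpAlg.θ_mem (O : OpAlg ld S) {t m : ℤ} {γ : S.E m} (hγ : γ ∈ S.F t m) (E : ℕ →₀ ℕ) :
    S.θ t m γ E ∈ grR p n (m + dT p E) t := by
  rw [O.θ_eq t m γ E hγ]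
  refine lead_homog ld (O.T_mem t m γ hγ E 0) ?_
  have := O.homog m γ E 0
  rwa [dT_zero, sub_zero] at this

theorem OpAlg.χ_spec (O : OpAlg ld S) {t : ℤ} (ht : 0 ≤ t) {γ : S.E 0} (hγ : γ ∈ S.F t 0) :
    ∃ c : ℤ_[p], O.χ γ = (p : ℤ_[p]) ^ t.toNat * c ∧
      S.θ t 0 γ 0 = C (PadicInt.toZMod c) * X 0 ^ t.toNat := by
  have h1 : (monomial 0 1 : GG p) = 1 := rfl
  have h2 := O.T_mem t 0 γ hγ 0 0
  have h3 := O.homog 0 γ 0 0
  rw [dT_zero, add_zero, sub_zero] at h3
  rw [h1] at h2 h3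
  have h4 := HK_zero_eq_C h3
  have h5 := (mem_Ip_iff p).1 h2 0
  rw [map_zero, Nat.sub_zero] at h5
  obtain ⟨c, hc⟩ := h5
  refine ⟨c, hc, ?_⟩
  rw [O.θ_eq t 0 γ 0 hγ, h1, h4]
  have hc' : constantCoeff (coeff 0 (O.T 0 γ 1)) = (p : ℤ_[p]) ^ t.toNat * c := hc
  rw [hc', map_mul, map_pow]
  have h6 : (C (p : ℤ_[p]) : KK p) = (p : KK p) := by simp
  have h7 : ∀ k : ℕ, ((p : KK p)) ^ k ∈ Ip p k ∧ ld.L k ((p : KK p) ^ k) = X 0 ^ k := by
    intro k
    induction k with
    | zero =>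
      refine ⟨Ip_of_nonpos p (by simp) _, ?_⟩
      rw [pow_zero, pow_zero]
      exact lead_one ld
    | succ k ih =>
      have h8 : (p : KK p) ∈ Ip p 1 := by
        have := vK_mem (p := p) 0
        exact this
      have e1 : ((k + 1 : ℕ) : ℤ) = (k : ℤ) + 1 := by push_cast; ring
      rw [pow_succ, pow_succ, e1]
      exact ⟨Ip_mul p ih.1 h8, by rw [lead_mul ld ih.1 h8, ih.2, ld.p_eq]⟩
  have e2 : ((t.toNat : ℕ) : ℤ) = t := by omega
  have h9 := h7 t.toNat
  rw [e2] at h9
  rw [h6]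
  have h10 := lead_mul ld h9.1 (Ip_of_nonpos p (le_refl 0) (C c : KK p))
  rw [add_zero] at h10
  rw [h10, h9.2, ld.const, mul_comm]

end chi

/-! ### the filtered system -/

section topfs

variable {p : ℕ} [Fact p.Prime] {n : ℕ} {ld : Lead p n} {S : Src p n} (O : OpAlg ld S) (Y : Sys S)
  (m : ℤ)

open Classical in
/-- leading terms -/
noncomputable def θT (s k : ℤ) (a : Y.A k) : Fnl (NN p (Y.Pi m)) :=
  if h : k = m ∧ 0 ≤ s then del (cl p s.toNat (Y.ev m (cast (by rw [h.1]) a))) else 0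

theorem θT_self {s : ℤ} (hs : 0 ≤ s) (a : Y.A m) :
    θT Y m s m a = del (cl p s.toNat (Y.ev m a)) := by
  unfold θT
  rw [dif_pos ⟨rfl, hs⟩]
  rfl

theorem θT_neg {s k : ℤ} (hs : s < 0) (a : Y.A k) : θT Y m s k a = 0 := by
  unfold θT
  rw [dif_neg (by omega)]

theorem θT_ne {s k : ℤ} (hk : k ≠ m) (a : Y.A k) : θT Y m s k a = 0 := by
  unfold θT
  rw [dif_neg (by omega)]

/-- the filtration -/
def FT (s k : ℤ) : AddSubgroup (Y.A k) := (nsmulAddMonoidHom (p ^ s.toNat) : Y.A k →+ Y.A k).range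

theorem mem_FT {s k : ℤ} {a : Y.A k} : a ∈ FT Y s k ↔ ∃ b, (p ^ s.toNat) • b = a := Iff.rfl

theorem zero_add_toNat {s t : ℤ} (h : s ≤ t) : ∃ j : ℕ, t.toNat = s.toNat + j :=
  ⟨t.toNat - s.toNat, by omega⟩

theorem FT_mono {s s' k : ℤ} (h : s ≤ s') : FT Y s' k ≤ FT Y s k := by
  rintro a ⟨b, rfl⟩
  obtain ⟨j, hj⟩ := zero_add_toNat h
  refine ⟨(p ^ j) • b, ?_⟩
  change (p ^ s.toNat) • (p ^ j) • b = (p ^ s'.toNat) • b
  rw [hj, pow_add, mul_smul]

theorem FT_of_nonpos {s k : ℤ} (h : s ≤ 0) (a : Y.A k) : a ∈ FT Y s k :=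
  ⟨a, by
    change (p ^ s.toNat) • a = a
    rw [show s.toNat = 0 by omega, pow_zero, one_smul]⟩

variable {Y m}
variable (hb : ∀ k, m ≤ k → Function.Bijective (Y.ev k)) (hz : ∀ k, m < k → ∀ x : Y.Pi k, x = 0)

include hb in
theorem mem_FT_iff {s : ℤ} {a : Y.A m} : a ∈ FT Y s m ↔ ∃ y, Y.ev m a = (p ^ s.toNat) • y := by
  rw [mem_FT]
  constructor
  · rintro ⟨b, rfl⟩
    exact ⟨Y.ev m b, map_nsmul _ _ _⟩
  · rintro ⟨y, hy⟩
    obtain ⟨b, rfl⟩ := (hb m le_rfl).2 y
    exact ⟨b, (hb m le_rfl).1 (by rw [map_nsmul, hy])⟩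

include hb hz in
theorem A_zero {k : ℤ} (hk : m < k) (a : Y.A k) : a = 0 :=
  (hb k hk.le).1 (by rw [hz k hk (Y.ev k a), map_zero])

include hb in
theorem θT_add {s : ℤ} (hs : 0 ≤ s) {a b : Y.A m} (ha : a ∈ FT Y s m) (hb' : b ∈ FT Y s m) :
    cl p s.toNat (Y.ev m (a + b)) = cl p s.toNat (Y.ev m a) + cl p s.toNat (Y.ev m b) := by
  obtain ⟨x, hx⟩ := (mem_FT_iff hb).1 ha
  obtain ⟨y, hy⟩ := (mem_FT_iff hb).1 hb'
  rw [map_add, hx, hy, ← smul_add, cl_smul, cl_smul, cl_smul, el_add]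

theorem DD_del_zero (hp : 2 ≤ p) (l : ℕ) {N : Type} [AddCommGroup N] [Module (RR p n) N] (y : N) :
    DD p n l (del y) = 0 := by
  funext E
  refine Finset.sum_eq_zero fun a _ => ?_
  have h : E + Finsupp.single (n + l - (a : ℕ)) (p ^ (a : ℕ)) ≠ 0 := by
    intro h
    have h1 := (add_eq_zero.1 h).2
    rw [Finsupp.single_eq_zero] at h1
    exact (pow_pos (by omega : 0 < p) _).ne' h1
  rw [del, Pi.single_eq_of_ne h, smul_zero]

theorem toNat_mono {s : ℤ} : Monotone fun i : ℕ => (s + i).toNat := fun i j hij => by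
  change (s + i).toNat ≤ (s + j).toNat
  omega

theorem toNat_inf {s : ℤ} (N : ℕ) : ∃ i : ℕ, N ≤ (s + i).toNat := ⟨N + s.natAbs, by omega⟩

theorem smul_mem_FT [Module ℤ_[p] (Y.Pi m)] (hb : ∀ k, m ≤ k → Function.Bijective (Y.ev k))
    {s t : ℤ} {a b : Y.A m} {c : ℤ_[p]} (ha : a ∈ FT Y s m)
    (h : Y.ev m b = ((p : ℤ_[p]) ^ t.toNat * c) • Y.ev m a) : b ∈ FT Y (s + t) m := by
  obtain ⟨x, hx⟩ := (mem_FT_iff hb).1 ha
  obtain ⟨j, hj⟩ : ∃ j : ℕ, s.toNat + t.toNat = (s + t).toNat + j :=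
    ⟨s.toNat + t.toNat - (s + t).toNat, by omega⟩
  refine (mem_FT_iff hb).2 ⟨(p ^ j) • (c • x), ?_⟩
  rw [h, hx]
  have h2 : ∀ (t : ℕ) (y : Y.Pi m), (p ^ t) • y = ((p : ℤ_[p]) ^ t) • y := fun t y => by
    rw [← Nat.cast_smul_eq_nsmul ℤ_[p], Nat.cast_pow]
  rw [h2, h2, h2, smul_smul, smul_smul, smul_smul]
  congr 1
  calc (p : ℤ_[p]) ^ t.toNat * c * (p : ℤ_[p]) ^ s.toNat =
      (p : ℤ_[p]) ^ (s.toNat + t.toNat) * c := by ring
    _ = _ := by rw [hj]; ring

theorem top_fs [Module ℤ_[p] (Y.Pi m)] [Module.Finite ℤ_[p] (Y.Pi m)]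
    (hb : ∀ k, m ≤ k → Function.Bijective (Y.ev k)) (hz : ∀ k, m < k → ∀ x : Y.Pi k, x = 0)
    (hχ : ∀ (h : m + 0 = m) (a : Y.A m) (γ : S.E 0), Y.ev m (Y.act h a γ) = O.χ γ • Y.ev m a) :
    Nonempty (FS Y (grT p (Y.Pi m) m) m) := by
  have hp2 : 2 ≤ p := (Fact.out : p.Prime).two_le
  have hA : ∀ {k : ℤ}, m < k → ∀ a : Y.A k, a = 0 := fun hk a => A_zero hb hz hk a
  have hgrz : ∀ {k s : ℤ}, k ≠ m → grT p (Y.Pi m) m k s = ⊥ := fun hk => by
    unfold grT
    rw [if_neg (fun h => hk h.1)]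
  have hsep : ∀ x : Y.Pi m, (∀ s : ℕ, ∃ y : Y.Pi m, x = (p ^ s) • y) → x = 0 :=
    fun x hx => fg_sep p _ x hx
  have hkerm : ∀ {s : ℤ} {a : Y.A m}, a ∈ FT Y s m →
      (θT Y m s m a = 0 ↔ a ∈ FT Y (s + 1) m) := by
    intro s a ha
    by_cases hs : 0 ≤ s
    · rw [θT_self Y m hs, mem_FT_iff hb, del, Pi.single_eq_zero_iff]
      have h1 := cl_eq_zero_iff p s.toNat ((mem_FT_iff hb).1 ha)
      have e1 : (s + 1).toNat = s.toNat + 1 := by omega
      rw [h1, e1]
    · rw [θT_neg Y m (by omega)]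
      exact ⟨fun _ => FT_of_nonpos Y (by omega) a, fun _ => rfl⟩
  refine ⟨{
    F := fun s k => FT Y s k
    mono := fun h => FT_mono Y h
    exh := fun _ => ⟨0, by
      rw [eq_top_iff]
      exact fun a _ => FT_of_nonpos Y le_rfl a⟩
    sep := ?_
    cpl := ?_
    p_mem := ?_
    θ := fun s k a => θT Y m s k a
    θ_add := ?_
    θ_mem := ?_
    θ_surj := ?_
    θ_ker := ?_
    x_mem := ?_
    θ_x := ?_
    act_mem := ?_
    θ_act := ?_
    ev_surj := fun hk => (hb _ hk).2
    ev_lift := ?_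
    ev_zero := ?_
    ev_sep := ?_ }⟩
  · -- sep
    intro k hk a ha
    rcases hk.lt_or_eq with hk | rfl
    · exact hA hk a
    · refine (hb m le_rfl).1 ?_
      rw [map_zero]
      refine hsep _ fun s => ?_
      have := (mem_FT_iff hb).1 (ha s)
      simpa using this
  · -- cpl
    intro k hk s a ha
    rcases hk.lt_or_eq with hk | rfl
    · exact ⟨0, fun j => by rw [hA hk (0 - _)]; exact AddSubgroup.zero_mem _⟩
    · choose x hx using fun i => (mem_FT_iff hb).1 (ha i)
      obtain ⟨b, hb'⟩ := fg_cpl p (Y.Pi m) (fun i => (s + i).toNat) toNat_mono toNat_inf x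
      obtain ⟨b', rfl⟩ := (hb m le_rfl).2 b
      refine ⟨b', fun j => (mem_FT_iff hb).2 ?_⟩
      obtain ⟨y, hy⟩ := hb' j
      refine ⟨y, ?_⟩
      rw [map_sub, map_sum, ← hy]
      congr 1
      exact Finset.sum_congr rfl fun i _ => hx i
  · -- p_mem
    rintro s k a ⟨b, rfl⟩
    obtain ⟨j, hj⟩ : ∃ j : ℕ, s.toNat + 1 = (s + 1).toNat + j :=
      ⟨s.toNat + 1 - (s + 1).toNat, by omega⟩
    refine ⟨(p ^ j) • b, ?_⟩
    change (p ^ (s + 1).toNat) • (p ^ j) • b = p • (p ^ s.toNat) • b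
    rw [smul_smul, smul_smul, ← pow_add, ← hj, pow_succ']
  · -- θ_add
    intro s k a b hk ha hb'
    rcases hk.lt_or_eq with hk | rfl
    · rw [θT_ne Y m hk.ne', θT_ne Y m hk.ne', θT_ne Y m hk.ne', add_zero]
    · by_cases hs : 0 ≤ s
      · rw [θT_self Y m hs, θT_self Y m hs, θT_self Y m hs, θT_add hb hs ha hb', del, Pi.single_add]
      · rw [θT_neg Y m (by omega), θT_neg Y m (by omega), θT_neg Y m (by omega), add_zero]
  · -- θ_mem
    intro s k a hk ha E
    rcases hk.lt_or_eq with hk | rfl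
    · rw [θT_ne Y m hk.ne']
      exact AddSubgroup.zero_mem _
    · by_cases hs : 0 ≤ s
      · rw [θT_self Y m hs]
        by_cases hE : E = 0
        · subst hE
          rw [dT_zero, add_zero, del, Pi.single_eq_same]
          obtain ⟨x, hx⟩ := (mem_FT_iff hb).1 ha
          rw [hx, cl_smul]
          unfold grT
          rw [if_pos ⟨rfl, hs⟩]
          exact el_mem p _ _
        · rw [del, Pi.single_eq_of_ne hE]
          exact AddSubgroup.zero_mem _
      · rw [θT_neg Y m (by omega)]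
        exact AddSubgroup.zero_mem _
  · -- θ_surj
    intro s k ζ hk hζ
    have hE : ∀ E, E ≠ 0 → ζ E = 0 := fun E hE => by
      have h1 := hζ E
      rw [hgrz (by have := dT_pos (p := p) hE; omega)] at h1
      exact AddSubgroup.mem_bot.1 h1
    rcases hk.lt_or_eq with hk | rfl
    · refine ⟨0, AddSubgroup.zero_mem _, ?_⟩
      rw [θT_ne Y m hk.ne']
      funext E
      have h1 := hζ E
      rw [hgrz (by have := dT_nonneg (p := p) E; omega)] at h1
      exact (AddSubgroup.mem_bot.1 h1).symm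
    · have h0 := hζ 0
      rw [dT_zero, add_zero] at h0
      unfold grT at h0
      by_cases hs : 0 ≤ s
      · rw [if_pos ⟨rfl, hs⟩] at h0
        obtain ⟨g, hg⟩ := exists_el p h0
        obtain ⟨a, ha⟩ := (hb m le_rfl).2 ((p ^ s.toNat) • g)
        refine ⟨a, (mem_FT_iff hb).2 ⟨g, ha⟩, ?_⟩
        rw [θT_self Y m hs, ha, cl_smul]
        funext E
        by_cases hE0 : E = 0
        · subst hE0
          rw [del, Pi.single_eq_same, hg]
        · rw [del, Pi.single_eq_of_ne hE0, hE E hE0]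
      · rw [if_neg (by omega)] at h0
        refine ⟨0, AddSubgroup.zero_mem _, ?_⟩
        rw [θT_neg Y m (by omega)]
        funext E
        by_cases hE0 : E = 0
        · subst hE0
          exact (AddSubgroup.mem_bot.1 h0).symm
        · exact (hE E hE0).symm
  · -- θ_ker
    intro s k a hk ha
    rcases hk.lt_or_eq with hk | rfl
    · rw [θT_ne Y m hk.ne', hA hk a]
      exact ⟨fun _ => AddSubgroup.zero_mem _, fun _ => rfl⟩
    · exact hkerm ha
  · -- x_mem
    intro l s k k' h a hk ha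
    have h1 : 0 < dd p n l := by
      unfold dd
      rw [show n + 1 + l = (n + l) + 1 by ring]
      exact H746.sV_pos p _
    have h2 := hA (by omega : m < k') (Y.act h a (S.x l))
    rw [h2]
    exact AddSubgroup.zero_mem _
  · -- θ_x
    intro l s k k' h a hk ha
    have h1 : 0 < dd p n l := by
      unfold dd
      rw [show n + 1 + l = (n + l) + 1 by ring]
      exact H746.sV_pos p _
    rw [θT_ne Y m (by omega : k' ≠ m)]
    rcases hk.lt_or_eq with hk | rfl
    · rw [θT_ne Y m hk.ne']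
      funext E
      exact (Finset.sum_eq_zero fun a _ => smul_zero _).symm
    · by_cases hs : 0 ≤ s
      · rw [θT_self Y m hs, DD_del_zero hp2]
      · rw [θT_neg Y m (by omega)]
        funext E
        exact (Finset.sum_eq_zero fun a _ => smul_zero _).symm
  · -- act_mem
    intro s k t m' k' h a γ y hk hk' ha hy hγ
    rcases hk'.lt_or_eq with hk' | rfl
    · have h2 := hA hk' (Y.act h a γ)
      rw [h2]
      exact AddSubgroup.zero_mem _
    · rcases hk.lt_or_eq with hk | rfl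
      · rw [hA hk a, map_zero]
        exact AddSubgroup.zero_mem _
      · obtain rfl : m' = 0 := by omega
        by_cases ht : 0 ≤ t
        · obtain ⟨c, hc, _⟩ := O.χ_spec ht hγ
          refine smul_mem_FT hb ha (c := c) ?_
          rw [hχ, hc]
        · refine smul_mem_FT hb ha (c := O.χ γ) ?_
          rw [hχ, show t.toNat = 0 by omega, pow_zero, one_mul]
  · -- θ_act
    intro s k t m' k' h a γ y hk hk' ha hy hγ
    rcases hk.lt_or_eq with hk | rfl
    · have hy0 : y = 0 := by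
        have h1 := congrFun hy 0
        rw [θT_ne Y m hk.ne', Pi.single_eq_same] at h1
        exact h1.symm
      have h2 : Y.act h a γ = 0 := by rw [hA hk a, map_zero]; rfl
      rw [h2, hy0]
      funext E
      rw [smul_zero]
      rcases hk'.lt_or_eq with hk' | rfl
      · rw [θT_ne Y m hk'.ne']
        rfl
      · rw [(hkerm (AddSubgroup.zero_mem _)).2 (AddSubgroup.zero_mem _)]
        rfl
    · rcases hk'.lt_or_eq with hk' | rfl
      · rw [θT_ne Y m hk'.ne']
        funext E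
        have h1 := O.θ_mem hγ E
        exact (smul_of_ne h1 (by have := dT_nonneg (p := p) E; omega) y).symm
      · obtain rfl : m' = 0 := by omega
        funext E
        by_cases hE : E = 0
        · subst hE
          -- the degenerate cases
          have hdeg : Y.act h a γ ∈ FT Y (s + t) m → Y.act h a γ ∈ FT Y (s + t + 1) m →
              S.θ t 0 γ 0 • y = 0 → θT Y m (s + t) m (Y.act h a γ) 0 = S.θ t 0 γ 0 • y := by
            intro h1 h2 h3
            rw [h3, (hkerm h1).2 h2]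
            rfl
          by_cases ht : 0 ≤ t
          · obtain ⟨c, hc, hcθ⟩ := O.χ_spec ht hγ
            have hact : Y.ev m (Y.act h a γ) = ((p : ℤ_[p]) ^ t.toNat * c) • Y.ev m a := by
              rw [hχ, hc]
            by_cases hs : 0 ≤ s
            · obtain ⟨x, hx⟩ := (mem_FT_iff hb).1 ha
              have hyx : y = el p s.toNat x := by
                have h1 := congrFun hy 0
                rw [θT_self Y m hs, del, Pi.single_eq_same, Pi.single_eq_same, hx, cl_smul] at h1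
                exact h1.symm
              have h2 : ∀ (t : ℕ) (y : Y.Pi m), (p ^ t) • y = ((p : ℤ_[p]) ^ t) • y := fun t y => by
                rw [← Nat.cast_smul_eq_nsmul ℤ_[p], Nat.cast_pow]
              have hact' : Y.ev m (Y.act h a γ) = (p ^ (s + t).toNat) • (c • x) := by
                rw [hact, hx, h2, h2, smul_smul, smul_smul]
                congr 1
                rw [show (s + t).toNat = s.toNat + t.toNat by omega]
                ring
              rw [θT_self Y m (by omega : 0 ≤ s + t), del, Pi.single_eq_same, hact', cl_smul, hcθ,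
                hyx, mul_smul, X0_pow_smul, C_smul, el_smul,
                show (s + t).toNat = s.toNat + t.toNat by omega]
            · have hy0 : y = 0 := by
                have h1 := congrFun hy 0
                rw [θT_neg Y m (by omega), Pi.single_eq_same] at h1
                exact h1.symm
              have h1 : Y.act h a γ ∈ FT Y (0 + t) m :=
                smul_mem_FT hb (FT_of_nonpos Y le_rfl a) hact
              refine hdeg (FT_mono Y (by omega) h1) (FT_mono Y (by omega) h1) ?_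
              rw [hy0, smul_zero]
          · have h1 : Y.act h a γ ∈ FT Y (s + 0) m := by
              refine smul_mem_FT hb ha (c := O.χ γ) ?_
              rw [hχ, Int.toNat_zero, pow_zero, one_mul]
            refine hdeg (FT_mono Y (by omega) h1) (FT_mono Y (by omega) h1) ?_
            rw [grR_neg (by omega) (O.θ_mem hγ 0), zero_smul]
        · have h1 := O.θ_mem hγ E
          rw [smul_of_ne h1 (by have := dT_pos (p := p) hE; omega) y]
          by_cases hst : 0 ≤ s + t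
          · rw [θT_self Y m hst, del, Pi.single_eq_of_ne hE]
          · rw [θT_neg Y m (by omega)]
            rfl
  · -- ev_lift
    intro s k a hk ha h0
    refine ⟨a, ?_, rfl⟩
    rcases hk.lt_or_eq with hk | rfl
    · rw [hA hk a]
      exact AddSubgroup.zero_mem _
    · refine (hkerm ha).1 ?_
      by_cases hs : 0 ≤ s
      · rw [θT_self Y m hs] at h0 ⊢
        rw [del, Pi.single_eq_same] at h0
        rw [h0, del, Pi.single_zero]
      · exact θT_neg Y m (by omega) a
  · -- ev_zero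
    intro s k a hk ha h0
    have h1 : a = 0 := (hb k hk).1 (by rw [h0, map_zero])
    subst h1
    rcases hk.lt_or_eq with hk | rfl
    · rw [θT_ne Y m hk.ne']
      rfl
    · rw [(hkerm (AddSubgroup.zero_mem _)).2 (AddSubgroup.zero_mem _)]
      rfl
  · -- ev_sep
    intro k hk x hx
    rcases hk.lt_or_eq with hk | rfl
    · exact hz k hk x
    · refine hsep x fun s => ?_
      obtain ⟨a, ha, rfl⟩ := hx s
      have := (mem_FT_iff hb).1 ha
      simpa using this

end topfs

end Vale.Agent.P221.T
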