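import Vale.Agent.P221.T.H520.T2
import Vale.Agent.P221.T.H520.TopFS
import Vale.Agent.P221.H598.V
import Vale.Agent.P221.H136.Res
import Vale.Agent.P221.T.H769.F1
import Vale.Agent.P221.T.H769.F3
import Vale.Agent.P221.T.H746.F4
import Vale.Agent.P221.T.H746.SB
import Vale.Agent.P221.T.H609.S

/-!
# P221, part T: the end game

`Env` : the standard form `q : P ⟶ B` with everything that is known about it.
`end_game` : a `p`-complete `Y` with a filtered system whose graded module is finitely generated,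
bounded below and degreewise finitely generated over `ℤ_p`, is in `Thick B`.
`thick_of_coor` : the same from coordinates and finite generation over `ℤ_p[v_1, …, v_n]`.
-/

open CategoryTheory MonoidalCategory Limits Pretriangulated
open Vale.Agent.P251.T Vale.Agent.P251.M

set_option linter.unusedSectionVars false

universe u

namespace Vale.Agent.P221.T

open TopN

/-! ### filtered systems and truncation -/

section alg

variable {p n : ℕ}

theorem inF_trunc [Fact p.Prime] {N : Type} [AddCommGroup N] [Module (RR p n) N]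
    {gr : ℤ → ℤ → AddSubgroup N} {d k s : ℤ} (hk : d ≤ k) (ζ : Fnl N) :
    InF p (trunc d gr) k s ζ ↔ InF p gr k s ζ := by
  refine forall_congr' fun E => ?_
  unfold trunc
  rw [if_pos (by have := dT_nonneg (p := p) E; omega)]

/-- a filtered system in degrees `≥ d` only involves the truncation of `gr` -/
def FS.trunc [Fact p.Prime] {S : Src p n} {Y : Sys S} {N : Type} [AddCommGroup N]
    [Module (RR p n) N] {gr : ℤ → ℤ → AddSubgroup N} {d : ℤ} (T : FS Y gr d) :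
    FS Y (trunc d gr) d where
  F := T.F
  mono := T.mono
  exh := T.exh
  sep := T.sep
  cpl := T.cpl
  p_mem := T.p_mem
  θ := T.θ
  θ_add := T.θ_add
  θ_mem hk ha := (inF_trunc (p := p) (n := n) hk _).2 (T.θ_mem hk ha)
  θ_surj {_ _ ζ} hk hζ := T.θ_surj hk ((inF_trunc (p := p) (n := n) hk ζ).1 hζ)
  θ_ker := T.θ_ker
  x_mem := T.x_mem
  θ_x := T.θ_x
  act_mem := T.act_mem
  θ_act := T.θ_act
  ev_surj := T.ev_surj
  ev_lift := T.ev_lift
  ev_zero := T.ev_zero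
  ev_sep := T.ev_sep

variable [Fact p.Prime]

theorem OpAlg.x_mem {ld : Lead p n} {S : Src p n} (O : OpAlg ld S) (l : ℕ) : S.x l ∈ S.F 1 _ := by
  rw [O.F_iff]
  intro E E'
  rw [O.T_x]
  exact H746.eta_mem O l E E'

theorem OpAlg.θ_x {ld : Lead p n} {S : Src p n} (O : OpAlg ld S) (l : ℕ) :
    S.θ 1 _ (S.x l) = 0 := by
  funext E
  rw [O.θ_eq 1 _ _ E (O.x_mem l), O.T_x, H746.eta_lead]
  refine Finset.sum_eq_zero fun a _ => if_neg fun h => ?_
  have h1 := congrArg (fun f : ℕ →₀ ℕ => f (n + l - a)) h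
  simp only [Finsupp.add_apply, Finsupp.single_eq_same, Finsupp.zero_apply] at h1
  have h2 : p ^ (a : ℕ) ≠ 0 := pow_ne_zero _ (Fact.out : p.Prime).ne_zero
  omega

/-! ### module structures -/

/-- some structure of a finitely generated `ℤ_p`-module -/
def FinZp (p : ℕ) [Fact p.Prime] (G : Type) [AddCommGroup G] : Prop :=
  ∃ _ : Module ℤ_[p] G, Module.Finite ℤ_[p] G

theorem FinZp.of_zero {G : Type} [AddCommGroup G] (h : ∀ x : G, x = 0) : FinZp p G := by
  have : Subsingleton G := ⟨fun a b => (h a).trans (h b).symm⟩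
  let M : Module ℤ_[p] G :=
    { smul := fun _ x => x
      one_smul := fun _ => Subsingleton.elim _ _
      mul_smul := fun _ _ _ => Subsingleton.elim _ _
      smul_zero := fun _ => Subsingleton.elim _ _
      smul_add := fun _ _ _ => Subsingleton.elim _ _
      add_smul := fun _ _ _ => Subsingleton.elim _ _
      zero_smul := fun _ => Subsingleton.elim _ _ }
  refine ⟨M, ⟨⟨∅, ?_⟩⟩⟩
  rw [eq_top_iff]
  intro x _
  rw [h x]
  exact Submodule.zero_mem _

theorem FinZp.of_equiv {G G' : Type} [AddCommGroup G] [AddCommGroup G'] (e : G ≃+ G')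
    (h : FinZp p G') : FinZp p G := by
  obtain ⟨M, hM⟩ := h
  let M' : Module ℤ_[p] G := AddEquiv.module ℤ_[p] e
  let L : G' ≃ₗ[ℤ_[p]] G :=
    { e.symm with
      map_smul' := fun c x => by
        change e.symm (c • x) = e.symm (c • e (e.symm x))
        rw [e.apply_symm_apply] }
  exact ⟨M', Module.Finite.equiv L⟩

/-! ### finitely generated graded modules over `ℤ_p[v_1, …, v_n]` -/

section gen

variable {M : Type} [AddCommGroup M] [Module (KK p) M] (Mg : ℤ → AddSubgroup M)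
  {r : ℕ} (e : Fin r → ℤ) (y : Fin r → M)
  (hgen : ∀ k, ∀ z ∈ Mg k, ∃ f : Fin r → MvPolynomial (Fin n) ℤ_[p],
    (∀ i, HK p (k - e i) (MvPolynomial.rename (fun i : Fin n => (i : ℕ)) (f i))) ∧
      z = ∑ i, MvPolynomial.rename (fun i : Fin n => (i : ℕ)) (f i) • y i)

include hgen

theorem bdd_of_gen : ∃ m₀ : ℤ, ∀ k, k < m₀ → ∀ z ∈ Mg k, z = 0 := by
  refine ⟨-∑ i, |e i|, fun k hk z hz => ?_⟩
  obtain ⟨f, hf, rfl⟩ := hgen k z hz
  refine Finset.sum_eq_zero fun i _ => ?_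
  have h1 : f i = 0 := by
    by_contra h
    obtain ⟨μ, hμ⟩ := MvPolynomial.ne_zero_iff.1 h
    have h2 := H609.HK_rn.1 (hf i) μ hμ
    have h3 := H609.degree_le (p := p) μ
    have h4 : |e i| ≤ ∑ i, |e i| :=
      Finset.single_le_sum (f := fun i => |e i|) (fun i _ => abs_nonneg _) (Finset.mem_univ i)
    have h5 := neg_abs_le (e i)
    omega
  rw [h1, map_zero, zero_smul]

theorem fin_of_gen (hsm : ∀ {k m : ℤ} {f : KK p} {y : M}, HK p m f → y ∈ Mg k →
    f • y ∈ Mg (k + m)) (hy : ∀ i, y i ∈ Mg (e i)) (k : ℤ) : FinZp p (Mg k) := by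
  classical
  let _ : Module ℤ_[p] M := Module.compHom M (MvPolynomial.C : ℤ_[p] →+* KK p)
  have hC : ∀ (c : ℤ_[p]) (z : M), c • z = (MvPolynomial.C c : KK p) • z := fun _ _ => rfl
  let G : Submodule ℤ_[p] M :=
    { Mg k with
      smul_mem' := fun c z hz => by
        have h1 := hsm (MvPolynomial.isWeightedHomogeneous_C
          (fun i => sV p (i + 1)) c) hz
        rw [add_zero] at h1
        exact h1 }
  let gen : (Σ i : Fin r, (H609.finite_wF (p := p) (n := n) (k - e i)).toFinset) → M := fun j =>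
    MvPolynomial.rename (fun i : Fin n => (i : ℕ)) (MvPolynomial.monomial j.2.1 (1 : ℤ_[p])) •
      y j.1
  have hG : G = Submodule.span ℤ_[p] (Set.range gen) := by
    apply le_antisymm
    · intro z hz
      obtain ⟨f, hf, rfl⟩ := hgen k z hz
      refine Submodule.sum_mem _ fun i _ => ?_
      rw [MvPolynomial.as_sum (f i), map_sum, Finset.sum_smul]
      refine Submodule.sum_mem _ fun μ hμ => ?_
      have h1 := H609.HK_rn.1 (hf i) μ (MvPolynomial.mem_support_iff.1 hμ)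
      have h2 : MvPolynomial.rename (fun i : Fin n => (i : ℕ))
          (MvPolynomial.monomial μ (MvPolynomial.coeff μ (f i))) • y i =
          MvPolynomial.coeff μ (f i) • gen ⟨i, μ, by
            rw [Set.Finite.mem_toFinset]
            exact h1⟩ := by
        rw [hC, smul_smul, MvPolynomial.rename_monomial, MvPolynomial.rename_monomial,
          MvPolynomial.C_mul_monomial, mul_one]
      rw [h2]
      exact Submodule.smul_mem _ _ (Submodule.subset_span (Set.mem_range_self _))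
    · rw [Submodule.span_le]
      rintro _ ⟨⟨i, μ, hμ⟩, rfl⟩
      rw [Set.Finite.mem_toFinset] at hμ
      have h1 : HK p (k - e i) (MvPolynomial.rename (fun i : Fin n => (i : ℕ))
          (MvPolynomial.monomial μ (1 : ℤ_[p]))) := by
        refine H609.HK_rn.2 fun μ' hμ' => ?_
        rw [MvPolynomial.coeff_monomial] at hμ'
        by_cases h : μ = μ'
        · rw [← h]
          exact hμ
        · rw [if_neg h] at hμ'
          exact absurd rfl hμ'
      have h2 := hsm h1 (hy i)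
      rw [show e i + (k - e i) = k by ring] at h2
      exact h2
  have hfg : G.FG := by
    rw [hG]
    exact Submodule.fg_span (Set.finite_range gen)
  exact ⟨inferInstanceAs (Module ℤ_[p] G), (Module.Finite.iff_fg (N := G)).2 hfg⟩

end gen

end alg

/-! ### the end game -/

variable {𝒯 : Type u} [Category.{0} 𝒯] [Preadditive 𝒯] [HasZeroObject 𝒯]
    [HasShift 𝒯 ℤ] [∀ n : ℤ, (shiftFunctor 𝒯 n).Additive] [Pretriangulated 𝒯] [IsTriangulated 𝒯]
    [MonoidalCategory 𝒯] [SymmetricCategory 𝒯] [TensorTriangulated 𝒯] [MonoidalClosed 𝒯]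
    [HasCoproducts.{0} 𝒯] [HasProducts.{0} 𝒯] [StableCat 𝒯]

variable {p n : ℕ} [Fact p.Prime] {P : 𝒯}

/-- The standard form `q : P ⟶ B` and the source `P`: everything that the end game uses. -/
structure Env {ld : Lead p n} (S : SrcT p n P) (O : OpAlg ld S.src) {B : 𝒯} (q : P ⟶ B)
    (TB : ∀ d, FS (S.sys B) (grR p n) d) : Prop where
  complete : H395.PComplete p B
  conn : ∀ (k : ℤ), k < 0 → ∀ f : (𝟙_ 𝒯)⟦k⟧ ⟶ B, f = 0
  lifts : Lifts S q
  approx : Approx (S.sys B) TB ((shiftFunctorZero 𝒯 ℤ).hom.app P ≫ q)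
  /-- `P` is the sphere in the top degree -/
  top : ∀ (Y : 𝒯) (m : ℤ), H395.PComplete p Y → (∀ k, m < k → ∀ x : (𝟙_ 𝒯)⟦k⟧ ⟶ Y, x = 0) →
    ∀ k, m ≤ k → Function.Bijective fun a : P⟦k⟧ ⟶ Y => S.u⟦k⟧' ≫ a
  /-- operations act on the restriction to the unit through `χ` -/
  chi : ∀ (Y : 𝒯) (m : ℤ), H395.PComplete p Y → (∀ k, m < k → ∀ x : (𝟙_ 𝒯)⟦k⟧ ⟶ Y, x = 0) →
    ∀ [Module ℤ_[p] ((𝟙_ 𝒯)⟦m⟧ ⟶ Y)] (h : m + 0 = m) (a : P⟦m⟧ ⟶ Y) (γ : P⟦(0 : ℤ)⟧ ⟶ P),
    S.u⟦m⟧' ≫ gc h γ a = O.χ γ • (S.u⟦m⟧' ≫ a)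

section

variable {ld : Lead p n} {S : SrcT p n P} {O : OpAlg ld S.src} {B : 𝒯} {q : P ⟶ B}
  {TB : ∀ d, FS (S.sys B) (grR p n) d}

/-- the main step, all leaves inserted -/
theorem Env.step (E : Env S O q TB) (i : ℕ) (Y : 𝒯) (N : Type) [AddCommGroup N]
    [Module (RR p n) N] (gr : ℤ → ℤ → AddSubgroup N) (d : ℤ) (hgr : IsGr p n gr)
    (hQ : QQ p n d i N gr) (hY : Nonempty (FS (S.sys Y) gr d)) (hc : H395.PComplete p Y) :
    ∃ Y' : 𝒯, (Thick B Y' → Thick B Y) ∧ H395.PComplete p Y' ∧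
      (∀ k, d ≤ k + i → ∀ f : (𝟙_ 𝒯)⟦k⟧ ⟶ Y', f = 0) ∧
      (∀ k, k + i < d → Nonempty (((𝟙_ 𝒯)⟦k⟧ ⟶ Y') ≃+ ((𝟙_ 𝒯)⟦k + i⟧ ⟶ Y))) :=
  main_step S q TB (specVan_all (Fact.out : p.Prime).two_le)
    (H769.specF2 (Fact.out : p.Prime).pos) (H769.specF3 (Fact.out : p.Prime).pos)
    (H746.specF4 p n) E.complete E.lifts E.approx E.conn (fun l => O.x_mem l)
    (fun l => O.θ_x l) i Y N gr d hgr hQ hY hc

/-- homotopy in finitely many degrees -/
theorem Env.low (E : Env S O q TB) : ∀ (j : ℕ) (Y : 𝒯) (m₀ d : ℤ), d ≤ m₀ + j →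
    H395.PComplete p Y → (∀ k, d ≤ k → ∀ f : (𝟙_ 𝒯)⟦k⟧ ⟶ Y, f = 0) →
    (∀ k, k < m₀ → ∀ f : (𝟙_ 𝒯)⟦k⟧ ⟶ Y, f = 0) →
    (∀ k : ℤ, FinZp p ((𝟙_ 𝒯)⟦k⟧ ⟶ Y)) → Thick B Y := by
  intro j
  induction j with
  | zero =>
    intro Y m₀ d hj hY hd hm hf
    refine Thick.zero (StableCat.generator Y fun k f => ?_)
    by_cases h : d ≤ k
    · exact hd k h f
    · exact hm k (by push_cast at hj; omega) f
  | succ j ih =>
    intro Y m₀ d hj hY hd hm hf
    obtain ⟨m, rfl⟩ : ∃ m, d = m + 1 := ⟨d - 1, by ring⟩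
    have hz : ∀ k, m < k → ∀ x : (𝟙_ 𝒯)⟦k⟧ ⟶ Y, x = 0 := fun k hk => hd k (by omega)
    obtain ⟨M, hM⟩ := hf m
    have hb := E.top Y m hY hz
    have hχ := E.chi Y m hY hz
    let _ : Module ℤ_[p] ((S.sys Y).Pi m) := M
    have : Module.Finite ℤ_[p] ((S.sys Y).Pi m) := hM
    have hT : Nonempty (FS (S.sys Y) (grT p ((S.sys Y).Pi m) m) m) :=
      top_fs O (Y := S.sys Y) (m := m) hb hz hχ
    have hgr : IsGr p n (grT p ((S.sys Y).Pi m) m) := isGr_grT m
    have hFG : FG (p := p) (n := n) (grT p ((S.sys Y).Pi m) m) := fg_grT m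
    obtain ⟨i, hi⟩ := (H136.specRes p n).2 _ _ m hgr hFG fun k s hk => by
      unfold grT
      rw [if_neg fun h => hk h.1]
    obtain ⟨Y', hY', hc', h0, hiso⟩ := E.step i Y _ _ m hgr hi hT hY
    refine hY' (ih Y' (m₀ - i) (m - i) (by push_cast at hj; omega) hc' (fun k hk => h0 k (by omega))
      (fun k hk f => ?_) fun k => ?_)
    · by_cases h : m ≤ k + i
      · exact h0 k h f
      · obtain ⟨φ⟩ := hiso k (by omega)
        rw [← φ.map_eq_zero_iff]
        exact hm (k + i) (by omega) _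
    · by_cases h : m ≤ k + i
      · exact FinZp.of_zero (h0 k h)
      · obtain ⟨φ⟩ := hiso k (by omega)
        exact FinZp.of_equiv φ (hf (k + i))

/-- **The end game.** -/
theorem Env.end_game (E : Env S O q TB) (Y : 𝒯) (hY : H395.PComplete p Y) (N : Type)
    [AddCommGroup N] [Module (RR p n) N] (gr : ℤ → ℤ → AddSubgroup N) (hgr : IsGr p n gr)
    (hFG : FG (p := p) (n := n) gr) (hFS : ∀ d, Nonempty (FS (S.sys Y) gr d)) (m₀ : ℤ)
    (hm : ∀ k, k < m₀ → ∀ f : (𝟙_ 𝒯)⟦k⟧ ⟶ Y, f = 0)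
    (hf : ∀ k : ℤ, FinZp p ((𝟙_ 𝒯)⟦k⟧ ⟶ Y)) : Thick B Y := by
  obtain ⟨d, hd⟩ := (H136.specRes p n).1 N gr hgr hFG
  obtain ⟨i, hi⟩ := hd d le_rfl
  obtain ⟨T⟩ := hFS d
  obtain ⟨Y', hY', hc', h0, hiso⟩ := E.step i Y N (trunc d gr) d
    (H136.isGr_trunc (Fact.out : p.Prime).one_lt.le hgr d) hi ⟨T.trunc⟩ hY
  refine hY' (E.low (d - m₀).toNat Y' (m₀ - i) (d - i) (by omega) hc'
    (fun k hk => h0 k (by omega)) (fun k hk f => ?_) fun k => ?_)
  · by_cases h : d ≤ k + i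
    · exact h0 k h f
    · obtain ⟨φ⟩ := hiso k (by omega)
      rw [← φ.map_eq_zero_iff]
      exact hm (k + i) (by omega) _
  · by_cases h : d ≤ k + i
    · exact FinZp.of_zero (h0 k h)
    · obtain ⟨φ⟩ := hiso k (by omega)
      exact FinZp.of_equiv φ (hf (k + i))

/-- **The end game, from coordinates.** -/
theorem Env.thick_of_coor (E : Env S O q TB) (Y : 𝒯) (hY : H395.PComplete p Y) (M : Type)
    [AddCommGroup M] [Module (KK p) M] (Mg : ℤ → AddSubgroup M) (co : Coor O (S.sys Y) M Mg)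
    (hfg : ∃ (r : ℕ) (e : Fin r → ℤ) (y : Fin r → M), (∀ i, y i ∈ Mg (e i)) ∧
      ∀ k, ∀ z ∈ Mg k, ∃ f : Fin r → MvPolynomial (Fin n) ℤ_[p],
        (∀ i, HK p (k - e i) (MvPolynomial.rename (fun i : Fin n => (i : ℕ)) (f i))) ∧
          z = ∑ i, MvPolynomial.rename (fun i : Fin n => (i : ℕ)) (f i) • y i) : Thick B Y := by
  obtain ⟨N, _, _, gr, hgr, hFG, hFS⟩ := H609.specS p n ld S.src O (S.sys Y) M Mg co hfg
  obtain ⟨r, e, y, hy, hgen⟩ := hfg
  obtain ⟨m₀, hm⟩ := bdd_of_gen Mg e y hgen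
  have heq : ∀ k : ℤ, Nonempty (((𝟙_ 𝒯)⟦k⟧ ⟶ Y) ≃+ Mg k) := fun k => by
    let φ : ((𝟙_ 𝒯)⟦k⟧ ⟶ Y) →+ Mg k :=
      (co.e k).codRestrict (Mg k) fun x => (co.e_range k _).1 ⟨x, rfl⟩
    refine ⟨AddEquiv.ofBijective φ ⟨fun a b hab => ?_, fun z => ?_⟩⟩
    · exact co.e_inj k (congrArg Subtype.val hab)
    · obtain ⟨a, ha⟩ := (co.e_range k z.1).2 z.2
      exact ⟨a, Subtype.ext ha⟩
  refine E.end_game Y hY N gr hgr hFG hFS m₀ (fun k hk f => ?_) fun k => ?_
  · obtain ⟨φ⟩ := heq k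
    rw [← φ.map_eq_zero_iff]
    exact Subtype.ext (hm k hk _ (φ f).2)
  · obtain ⟨φ⟩ := heq k
    exact FinZp.of_equiv φ (fin_of_gen Mg e y hgen co.smul_mem hy k)

end

end Vale.Agent.P221.T
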