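import Vale.Agent.P221.T.H520.Lifts
import Vale.Agent.P221.H598.Van

/-!
# P221, part T: the main induction

`main_step` : `SpecT2` with the lifting property `Lifts S q` instead of the tower.
-/

open CategoryTheory MonoidalCategory Limits Pretriangulated
open Vale.Agent.P251.T Vale.Agent.P251.M

set_option linter.unusedSectionVars false

universe u

namespace Vale.Agent.P221.T

variable {𝒯 : Type u} [Category.{0} 𝒯] [Preadditive 𝒯] [HasZeroObject 𝒯]
    [HasShift 𝒯 ℤ] [∀ n : ℤ, (shiftFunctor 𝒯 n).Additive] [Pretriangulated 𝒯] [IsTriangulated 𝒯]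
    [MonoidalCategory 𝒯] [SymmetricCategory 𝒯] [TensorTriangulated 𝒯] [MonoidalClosed 𝒯]
    [HasCoproducts.{0} 𝒯] [HasProducts.{0} 𝒯] [StableCat 𝒯]

variable {p n : ℕ} {P : 𝒯}

section aux

/-- maps into a finite sum vanish if all components do -/
theorem eq_zero_of_proj {r : ℕ} (X : Fin r → 𝒯) {A : 𝒯} (z : A ⟶ ∐ X)
    (h : ∀ i (g : A ⟶ X i), g = 0) : z = 0 := by
  obtain ⟨g, hg⟩ := Vale.Agent.P251.S.finite_sum X z
  rw [hg]
  exact Finset.sum_eq_zero fun i _ => by rw [h i (g i), zero_comp]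

theorem pComplete_coprod {r : ℕ} {X : Fin r → 𝒯} (h : ∀ i, H395.PComplete p (X i)) :
    H395.PComplete p (∐ X) := fun W hW f =>
  eq_zero_of_proj X f fun i g => h i W hW g

theorem Thick.of_iso {B X Y : 𝒯} (e : X ≅ Y) (h : Thick B Y) : Thick B X :=
  Thick.retract e.hom e.inv e.hom_inv_id h

/-- extensions -/
theorem Thick.ext {B X Y Z : 𝒯} {f : X ⟶ Y} {g : Y ⟶ Z} {h : Z ⟶ X⟦(1 : ℤ)⟧}
    (H : Triangle.mk f g h ∈ distTriang 𝒯) (hX : Thick B X) (hZ : Thick B Z) : Thick B Y :=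
  Thick.cof (inv_rot_of_distTriang _ H) (Thick.shift (-1) hZ) hX

/-- finite sums -/
theorem Thick.coprod {B : 𝒯} : ∀ {r : ℕ} (X : Fin r → 𝒯), (∀ i, Thick B (X i)) →
    Thick B (∐ X) := by
  intro r
  induction r with
  | zero =>
    intro X _
    refine Thick.zero ?_
    rw [IsZero.iff_id_eq_zero]
    exact eq_zero_of_proj X _ fun i => i.elim0
  | succ r ih =>
    intro X hX
    have h1 := ih (fun i => X i.succ) fun i => hX _
    let W := X 0 ⊞ ∐ fun i : Fin r => X i.succ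
    have h2 : Thick B W := Thick.ext (binaryBiproductTriangle_distinguished _ _) (hX 0) h1
    let a : ∀ i, X i ⟶ W := Fin.cases biprod.inl
      (fun i => Sigma.ι (fun i : Fin r => X i.succ) i ≫ biprod.inr)
    refine Thick.retract (Sigma.desc a)
      (biprod.desc (Sigma.ι X 0) (Sigma.desc fun i => Sigma.ι X i.succ)) ?_ h2
    refine Sigma.hom_ext _ _ fun i => ?_
    rw [Sigma.ι_desc_assoc, Category.comp_id]
    refine Fin.cases ?_ (fun i => ?_) i
    · change biprod.inl ≫ _ = _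
      rw [biprod.inl_desc]
    · change (Sigma.ι (fun i : Fin r => X i.succ) i ≫ biprod.inr) ≫ _ = _
      rw [Category.assoc, biprod.inr_desc, Sigma.ι_desc]

end aux

section tri

variable {X Z Y : 𝒯} {ι : X ⟶ Z} {β : Z ⟶ Y} {h : Y ⟶ X⟦(1 : ℤ)⟧}
  (H : Triangle.mk ι β h ∈ distTriang 𝒯)

include H

theorem tri_exact {A : 𝒯} (z : A ⟶ Z) : z ≫ β = 0 ↔ ∃ c : A ⟶ X, c ≫ ι = z := by
  constructor
  · intro hz
    obtain ⟨c, hc⟩ := dist_co₂ H z hz
    exact ⟨c, hc.symm⟩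
  · rintro ⟨c, rfl⟩
    rw [Category.assoc, dist_zero₁₂ H, comp_zero]

theorem tri_inj {A : 𝒯} {k : ℤ} (c : A⟦k⟧ ⟶ X) (hs : ∀ y : A⟦k + 1⟧ ⟶ Y, ∃ z, z ≫ β = y)
    (hc : c ≫ ι = 0) : c = 0 := by
  have h1 : gc (add_comm 1 k) c (𝟙 (X⟦(1 : ℤ)⟧)) ≫ ι⟦(1 : ℤ)⟧' = 0 := by
    have h2 := gc_map (add_comm 1 k) c ι (𝟙 (Z⟦(1 : ℤ)⟧))
    rw [hc, gc_zero_left, Category.comp_id] at h2
    rw [← gc_comp, Category.id_comp, ← h2]
  obtain ⟨y, hy⟩ := dist_co₁ H _ h1
  obtain ⟨z, rfl⟩ := hs y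
  rw [Category.assoc, dist_zero₂₃ H, comp_zero] at hy
  refine gc_inj (add_comm 1 k) (hy.trans ?_)
  rw [gc_zero_left]

/-- the boundary isomorphism -/
theorem tri_equiv {A : 𝒯} {k : ℤ} (h0 : ∀ z : A⟦k⟧ ⟶ Z, z = 0)
    (h1 : ∀ z : A⟦k + 1⟧ ⟶ Z, z = 0) : Nonempty ((A⟦k⟧ ⟶ X) ≃+ (A⟦k + 1⟧ ⟶ Y)) := by
  let Φ : (A⟦k⟧ ⟶ X) →+ (A⟦k + 1⟧ ⟶ X⟦(1 : ℤ)⟧) :=
    { toFun := fun c => gc (add_comm 1 k) c (𝟙 _)
      map_zero' := gc_zero_left _ _
      map_add' := fun _ _ => gc_add_left _ _ _ _ }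
  let Ψ : (A⟦k + 1⟧ ⟶ Y) →+ (A⟦k + 1⟧ ⟶ X⟦(1 : ℤ)⟧) :=
    { toFun := fun y => y ≫ h
      map_zero' := zero_comp
      map_add' := fun _ _ => Preadditive.add_comp .. }
  have hΦ : Function.Bijective Φ :=
    ⟨fun _ _ hw => gc_inj (add_comm 1 k) hw, fun z => gc_surj (add_comm 1 k) z⟩
  have hΨ : Function.Bijective Ψ := by
    constructor
    · refine (injective_iff_map_eq_zero Ψ).2 fun y hy => ?_
      obtain ⟨z, hz⟩ := dist_co₃ H y hy
      rw [hz, h1 z, zero_comp]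
    · intro x
      obtain ⟨w, hw⟩ := gc_surj (add_comm 1 k) (x ≫ ι⟦(1 : ℤ)⟧')
      rw [h0 w, gc_zero_left] at hw
      obtain ⟨y, hy⟩ := dist_co₁ H x hw.symm
      exact ⟨y, hy.symm⟩
  exact ⟨(AddEquiv.ofBijective Φ hΦ).trans (AddEquiv.ofBijective Ψ hΨ).symm⟩

end tri

theorem pi_shift_zero {B : 𝒯} (hB0 : ∀ (k : ℤ), k < 0 → ∀ f : (𝟙_ 𝒯)⟦k⟧ ⟶ B, f = 0) {r : ℕ}
    (e : Fin r → ℤ) {k : ℤ} (hk : ∀ j, k < e j) (z : (𝟙_ 𝒯)⟦k⟧ ⟶ ∐ fun j => B⟦e j⟧) : z = 0 := by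
  refine eq_zero_of_proj _ z fun j g => ?_
  obtain ⟨w, hw⟩ := gc_surj (by omega : e j + (k - e j) = k) g
  rw [← hw, hB0 _ (by have := hk j; omega) w, gc_zero_left]

/-- homotopy in degrees `≥ d` vanishes if `gr = 0` -/
theorem FS.pi_eq_zero {S : Src p n} {Y : Sys S} {N : Type} [AddCommGroup N] [Module (RR p n) N]
    {gr : ℤ → ℤ → AddSubgroup N} {d : ℤ} (T : FS Y gr d) (h0 : ∀ k s, gr k s = ⊥) {k : ℤ}
    (hk : d ≤ k) (y : Y.Pi k) : y = 0 := by
  obtain ⟨a, rfl⟩ := T.ev_surj hk y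
  obtain ⟨s, hs⟩ := T.exh hk
  have h1 : ∀ m : ℕ, a ∈ T.F (s + m) k := by
    intro m
    induction m with
    | zero =>
      rw [Nat.cast_zero, add_zero, hs]
      exact AddSubgroup.mem_top a
    | succ m ih =>
      have h2 := T.θ_mem hk ih
      have h3 : T.θ (s + m) k a = 0 := by
        funext E
        have := h2 E
        rw [h0] at this
        exact this
      have h4 := (T.θ_ker hk ih).1 h3
      rwa [Nat.cast_succ, ← add_assoc]
  have h2 : a = 0 := T.sep hk a fun s' => by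
    have h3 := h1 (s' - s).toNat
    exact T.mono (by omega) h3
  rw [h2, map_zero]

section main

variable (S : SrcT p n P) {B : 𝒯} (q : P ⟶ B) (TB : ∀ d, FS (S.sys B) (grR p n) d)

/-- **The main step.** -/
theorem main_step (hVan : SpecVan p n) (F2 : SpecF2 p n) (F3 : SpecF3 p n) (F4 : SpecF4 p n)
    (hB : H395.PComplete p B) (hL : Lifts S q)
    (hA : Approx (S.sys B) TB ((shiftFunctorZero 𝒯 ℤ).hom.app P ≫ q))
    (hB0 : ∀ (k : ℤ), k < 0 → ∀ f : (𝟙_ 𝒯)⟦k⟧ ⟶ B, f = 0)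
    (hx : ∀ l, S.x l ∈ S.F 1 _) (hθ : ∀ l, S.θ 1 _ (S.x l) = 0) :
    ∀ (i : ℕ) (Y : 𝒯) (N : Type) [AddCommGroup N] [Module (RR p n) N]
    (gr : ℤ → ℤ → AddSubgroup N) (d : ℤ), IsGr p n gr → QQ p n d i N gr →
    Nonempty (FS (S.sys Y) gr d) → H395.PComplete p Y →
    ∃ Y' : 𝒯, (Thick B Y' → Thick B Y) ∧ H395.PComplete p Y' ∧
      (∀ k, d ≤ k + i → ∀ f : (𝟙_ 𝒯)⟦k⟧ ⟶ Y', f = 0) ∧
      (∀ k, k + i < d → Nonempty (((𝟙_ 𝒯)⟦k⟧ ⟶ Y') ≃+ ((𝟙_ 𝒯)⟦k + i⟧ ⟶ Y))) := by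
  intro i
  induction i with
  | zero =>
    intro Y N _ _ gr d hgr hQ hY hYc
    obtain ⟨T⟩ := hY
    refine ⟨Y, id, hYc, fun k hk f => ?_, fun k _ => ?_⟩
    · exact T.pi_eq_zero ((QQ_zero d gr).1 hQ) (k := k) (by simpa using hk) f
    · have e : k + ((0 : ℕ) : ℤ) = k := by simp
      rw [e]
      exact ⟨AddEquiv.refl _⟩
  | succ i ih =>
    intro Y N _ _ gr d hgr hQ hY hYc
    obtain ⟨T⟩ := hY
    obtain ⟨r, e, a, f, he, hf, hK⟩ := (QQ_succ d i gr).1 hQ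
    obtain ⟨hv, hv'⟩ := hVan d (i + 1) N gr hgr hQ
    -- the generators
    have hy : ∀ j, f (Pi.single j 1) ∈ gr (e j) (a j) := fun j => by
      refine hf.map _ _ _ ?_
      rw [mem_grFree]
      intro j'
      by_cases h : j' = j
      · subst h
        rw [Pi.single_eq_same, sub_self, sub_self]
        refine ⟨?_, ?_⟩
        · exact MvPolynomial.isWeightedHomogeneous_one _ _
        · exact MvPolynomial.isWeightedHomogeneous_one _ _
      · rw [Pi.single_eq_of_ne h]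
        exact (grR p n _ _).zero_mem
    choose α hα hαθ hαx using fun j => F2 S.src (S.sys Y) N gr d T hv' hx hθ (e j) (a j)
      (he j).1 (f (Pi.single j 1)) (hy j)
    choose b hb using fun j => hL Y hYc N gr d T hv (e j) (α j) (he j).1 (hαx j)
    -- the sum of the suspensions
    let X : Fin r → 𝒯 := fun j => B⟦e j⟧
    let β : ∐ X ⟶ Y := Sigma.desc b
    obtain ⟨X₀, ι, h, hT⟩ := distinguished_cocone_triangle₁ β
    -- F4
    obtain ⟨T', hT'⟩ := F4 S.src (S.sys B) TB _ hA (S.sys (∐ X)) (S.sys Y) N gr d T r e a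
      (fun j => S.map (Sigma.ι X j)) (S.map0 β) (fun j => S.map (b j)) f
      (fun k z => decomp e k z) (fun k z => decomp e k z) (fun j => (he j).1) hf.map
      (fun j k k' hk w => by
        have h1 : (S.map0 β).f (add_zero k') ((S.map (Sigma.ι X j)).f hk w) =
            ((S.map (Sigma.ι X j)).f hk w : P⟦k'⟧ ⟶ ∐ X) ≫ β := S.map0_f β k' _
        rw [h1]
        exact gc_ι_desc e b j (by omega) w)
      (fun j => by
        have h1 : (S.map (b j)).f (zero_add (e j)) ((shiftFunctorZero 𝒯 ℤ).hom.app P ≫ q) =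
            α j := (gc_unit_shift (add_zero (e j)) q (b j)).trans (hb j)
        rw [h1]
        exact hα j)
      (fun j => by
        have h1 : (S.map (b j)).f (zero_add (e j)) ((shiftFunctorZero 𝒯 ℤ).hom.app P ≫ q) =
            α j := (gc_unit_shift (add_zero (e j)) q (b j)).trans (hb j)
        rw [h1]
        exact hαθ j)
    obtain ⟨⟨TX⟩, hsA, hsPi⟩ := F3 S.src (S.sys X₀) (S.sys (∐ X)) (S.sys Y) N (Fin r → RR p n)
      (grFree p n e a) gr d T' T f (S.map0 ι) (S.map0 β) hf hT'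
      (fun k z _ => by
        have h1 : ((S.map0 β).f (add_zero k) z = 0) ↔ ((z : P⟦k⟧ ⟶ ∐ X) ≫ β = 0) := by
          rw [← S.map0_f β k z]
          exact Iff.rfl
        refine h1.trans ((tri_exact hT _).trans (exists_congr fun c => ?_))
        rw [← S.map0_f ι k c]
        exact Iff.rfl)
      (fun k z _ => by
        have h1 : ((S.map0 β).g (add_zero k) z = 0) ↔
            ((z : (𝟙_ 𝒯)⟦k⟧ ⟶ ∐ X) ≫ β = 0) := by
          rw [← S.map0_g β k z]
          exact Iff.rfl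
        refine h1.trans ((tri_exact hT _).trans (exists_congr fun c => ?_))
        rw [← S.map0_g ι k c]
        exact Iff.rfl)
      (fun k c _ hs hc => tri_inj hT (c : P⟦k⟧ ⟶ X₀)
        (fun y => by
          obtain ⟨z, hz⟩ := hs y
          exact ⟨z, (S.map0_f β (k + 1) z).symm.trans hz⟩)
        ((S.map0_f ι k c).symm.trans hc))
      (fun k c _ hs hc => tri_inj hT (c : (𝟙_ 𝒯)⟦k⟧ ⟶ X₀)
        (fun y => by
          obtain ⟨z, hz⟩ := hs y
          exact ⟨z, (S.map0_g β (k + 1) z).symm.trans hz⟩)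
        ((S.map0_g ι k c).symm.trans hc))
    have hZc : H395.PComplete p (∐ X) := pComplete_coprod fun j => hB.shift (e j)
    have hX₀c : H395.PComplete p X₀ := H395.PComplete.ext₁ _ hT hZc hYc
    have hZT : Thick B (∐ X) := Thick.coprod X fun j => Thick.shift (e j) Thick.base
    obtain ⟨Y', hY', hYc', h0', hiso'⟩ := ih X₀ (Fin r → RR p n) (kerGr (grFree p n e a) f) d
      (isGr_ker (isGr_free e a) f) hK ⟨TX⟩ hX₀c
    refine ⟨Y', fun hY'T => Thick.cof hT (hY' hY'T) hZT, hYc', fun k hk g => ?_, fun k hk => ?_⟩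
    · by_cases hki : d ≤ k + i
      · exact h0' k hki g
      · obtain ⟨φ⟩ := hiso' k (by omega)
        rw [← φ.map_eq_zero_iff]
        refine tri_inj hT (φ g) (fun y => ?_) ?_
        · obtain ⟨z, hz⟩ := hsPi (k + i + 1) y (by push_cast at hk; omega)
          exact ⟨z, (S.map0_g β (k + i + 1) z).symm.trans hz⟩
        · exact pi_shift_zero hB0 e (fun j => by have := (he j).1; omega) _
    · obtain ⟨φ⟩ := hiso' k (by push_cast at hk; omega)
      obtain ⟨ψ⟩ := tri_equiv (A := 𝟙_ 𝒯) (k := k + i) hT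
        (fun z => pi_shift_zero hB0 e (fun j => by have := (he j).1; push_cast at hk; omega) z)
        (fun z => pi_shift_zero hB0 e (fun j => by have := (he j).1; push_cast at hk; omega) z)
      have e1 : k + ((i + 1 : ℕ) : ℤ) = k + i + 1 := by push_cast; ring
      rw [e1]
      exact ⟨φ.trans ψ⟩

end main

end Vale.Agent.P221.T
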