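import Vale.Agent.P221.T.Coor
import Mathlib.Algebra.Module.ZMod
import Mathlib.Algebra.Polynomial.AlgebraMap
import Mathlib.RingTheory.Finiteness.Basic

/-!
# P221, part T: the graded module of a finitely generated `ℤ_p`-module

`NN p G = ∏_s p^s G / p^(s+1) G`, `v_0` acts as the multiplication by `p`, `v_a`, `a > 0`, by zero.
`grT m k s` : concentrated in degree `m`.
-/

open MvPolynomial

set_option linter.unusedSectionVars false
set_option linter.unusedVariables false

namespace Vale.Agent.P221.T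

namespace TopN

variable (p : ℕ) [Fact p.Prime] (n : ℕ) (G : Type) [AddCommGroup G]

/-- `{g | p^s g ∈ p^(s+1) G}` -/
def Ks (s : ℕ) : AddSubgroup G where
  carrier := {g | ∃ g', (p ^ s) • g = (p ^ (s + 1)) • g'}
  add_mem' := by
    rintro a b ⟨a', ha⟩ ⟨b', hb⟩
    exact ⟨a' + b', by rw [smul_add, smul_add, ha, hb]⟩
  zero_mem' := ⟨0, by rw [smul_zero, smul_zero]⟩
  neg_mem' := by
    rintro a ⟨a', ha⟩
    exact ⟨-a', by rw [smul_neg, smul_neg, ha]⟩

/-- the graded module -/
def NN : Type := ∀ s : ℕ, G ⧸ Ks p G s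

instance : AddCommGroup (NN p G) := inferInstanceAs (AddCommGroup (∀ s : ℕ, G ⧸ Ks p G s))

variable {G}

theorem Ks_le (s : ℕ) : Ks p G s ≤ Ks p G (s + 1) := by
  rintro a ⟨a', ha⟩
  exact ⟨a', by rw [pow_succ' p s, mul_smul, ha, pow_succ' p (s + 1), mul_smul]⟩

theorem smul_mem_Ks (s : ℕ) (g : G) : p • g ∈ Ks p G s := ⟨g, by rw [pow_succ, mul_smul]⟩

variable (G)

theorem p_smul (f : NN p G) : p • f = 0 := by
  funext s
  obtain ⟨g, hg⟩ := QuotientAddGroup.mk_surjective (f s)
  change p • f s = 0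
  rw [← hg, ← QuotientAddGroup.mk_nsmul, QuotientAddGroup.eq_zero_iff]
  exact smul_mem_Ks p s g

instance : Module (ZMod p) (NN p G) := AddCommGroup.zmodModule (p_smul p G)

/-- the multiplication by `p`, `p^s G/p^(s+1) G → p^(s+1) G/p^(s+2) G` -/
def tr (s : ℕ) : G ⧸ Ks p G s →+ G ⧸ Ks p G (s + 1) :=
  QuotientAddGroup.map _ _ (AddMonoidHom.id G) (Ks_le p s)

theorem tr_mk (s : ℕ) (g : G) : tr p G s (QuotientAddGroup.mk g) = QuotientAddGroup.mk g := rfl

/-- the action of `v_0` -/
def sh : NN p G →+ NN p G where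
  toFun f := fun s => match s with
    | 0 => 0
    | s + 1 => tr p G s (f s)
  map_zero' := by
    funext s
    cases s with
    | zero => rfl
    | succ s => exact map_zero _
  map_add' f g := by
    funext s
    cases s with
    | zero => exact (add_zero _).symm
    | succ s => exact map_add _ _ _

theorem sh_zero (f : NN p G) : sh p G f 0 = 0 := rfl
theorem sh_succ (f : NN p G) (s : ℕ) : sh p G f (s + 1) = tr p G s (f s) := rfl

/-- the action of `v_0` -/
def shL : NN p G →ₗ[ZMod p] NN p G := AddMonoidHom.toZModLinearMap p (sh p G)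

/-- `v_0 ↦ X`, `v_a ↦ 0` -/
noncomputable def evX : RR p n →ₐ[ZMod p] Polynomial (ZMod p) :=
  aeval fun a => if a = 0 then Polynomial.X else 0

noncomputable instance modRR : Module (RR p n) (NN p G) :=
  Module.compHom _ (((Polynomial.aeval (shL p G)).toRingHom.comp (evX p n).toRingHom :
    RR p n →+* Module.End (ZMod p) (NN p G)))

variable {G}

theorem smul_def (r : RR p n) (f : NN p G) :
    r • f = Polynomial.aeval (shL p G) (evX p n r) f := rfl

theorem X0_smul (f : NN p G) : (X 0 : RR p n) • f = sh p G f := by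
  rw [smul_def, evX, aeval_X, if_pos rfl, Polynomial.aeval_X]
  rfl

theorem Xa_smul {a : Fin (n + 1)} (ha : a ≠ 0) (f : NN p G) : (X a : RR p n) • f = 0 := by
  rw [smul_def, evX, aeval_X, if_neg ha, map_zero]
  rfl

theorem C_smul (c : ZMod p) (f : NN p G) : (C c : RR p n) • f = c • f := by
  rw [smul_def, evX, aeval_C, Polynomial.algebraMap_eq, Polynomial.aeval_C]
  rfl

/-- the component `s` -/
def co (s : ℕ) : AddSubgroup (NN p G) where
  carrier := {f | ∀ s' ≠ s, f s' = 0}
  add_mem' := by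
    intro a b ha hb s' hs
    change a s' + b s' = 0
    rw [ha s' hs, hb s' hs, add_zero]
  zero_mem' := fun _ _ => rfl
  neg_mem' := by
    intro a ha s' hs
    change -(a s') = 0
    rw [ha s' hs, neg_zero]

theorem sh_co {s : ℕ} {f : NN p G} (hf : f ∈ co p s) : sh p G f ∈ co p (s + 1) := by
  intro s' hs
  cases s' with
  | zero => rfl
  | succ s' => rw [sh_succ, hf s' (by omega), map_zero]

/-- the element `[g]` of the component `s` -/
def el (s : ℕ) (g : G) : NN p G := Pi.single (M := fun s => G ⧸ Ks p G s) s (QuotientAddGroup.mk g)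

theorem el_mem (s : ℕ) (g : G) : el p s g ∈ co p s := fun s' hs =>
  Pi.single_eq_of_ne (M := fun s => G ⧸ Ks p G s) hs _

theorem exists_el {s : ℕ} {f : NN p G} (hf : f ∈ co p s) : ∃ g, f = el p s g := by
  obtain ⟨g, hg⟩ := QuotientAddGroup.mk_surjective (f s)
  refine ⟨g, ?_⟩
  funext s'
  by_cases h : s' = s
  · subst h
    exact (hg.symm).trans (Pi.single_eq_same (M := fun s => G ⧸ Ks p G s) s' _).symm
  · rw [hf s' h, el_mem p s g s' h]

theorem el_add (s : ℕ) (g g' : G) : el p s (g + g') = el p s g + el p s g' := by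
  unfold el
  rw [QuotientAddGroup.mk_add, Pi.single_add]
  rfl

theorem el_zero (s : ℕ) : el p s (0 : G) = 0 := by
  unfold el
  rw [QuotientAddGroup.mk_zero, Pi.single_zero]
  rfl

theorem el_eq_zero_iff (s : ℕ) (g : G) : el p s g = 0 ↔ g ∈ Ks p G s := by
  constructor
  · intro h
    have h1 : el p s g s = 0 := by rw [h]; rfl
    unfold el at h1
    rw [Pi.single_eq_same] at h1
    exact (QuotientAddGroup.eq_zero_iff g).1 h1
  · intro h
    unfold el
    rw [(QuotientAddGroup.eq_zero_iff g).2 h, Pi.single_zero]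
    rfl

theorem sh_el (s : ℕ) (g : G) : sh p G (el p s g) = el p (s + 1) g := by
  funext s'
  by_cases h : s' = s + 1
  · subst h
    rw [sh_succ]
    unfold el
    rw [Pi.single_eq_same, Pi.single_eq_same]
    rfl
  · rw [el_mem p (s + 1) g s' h, sh_co p (el_mem p s g) s' h]

theorem X0_pow_smul (t s : ℕ) (g : G) : (X 0 ^ t : RR p n) • el p s g = el p (s + t) g := by
  induction t with
  | zero => rw [pow_zero, one_smul, add_zero]
  | succ t ih => rw [pow_succ', mul_smul, ih, X0_smul, sh_el, add_assoc]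

/-! ### homogeneous elements of `RR` -/

theorem wt_apply (w : Fin (n + 1) → ℤ) (E : Fin (n + 1) →₀ ℕ) :
    Finsupp.weight w E = ∑ a, (E a : ℤ) * w a := by
  rw [Finsupp.weight_apply, Finsupp.sum_fintype _ _ (fun i => by simp)]
  exact Finset.sum_congr rfl fun a _ => by simp

theorem sV_pos {a : ℕ} (ha : a ≠ 0) : 0 < sV p a := by
  have hp : 1 < p := (Fact.out : p.Prime).one_lt
  have h1 : (1 : ℤ) < (p : ℤ) ^ a := by
    exact_mod_cast Nat.one_lt_pow ha hp
  unfold sV
  omega

theorem sV_zero : sV p 0 = 0 := by simp [sV]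

theorem evX_monomial {E : Fin (n + 1) →₀ ℕ} (c : ZMod p) (h : ∃ a, a ≠ 0 ∧ E a ≠ 0) :
    evX p n (monomial E c) = 0 := by
  obtain ⟨a, ha, hE⟩ := h
  rw [evX, aeval_monomial, Finsupp.prod_fintype _ _ (fun i => pow_zero _),
    Finset.prod_eq_zero (Finset.mem_univ a), mul_zero]
  rw [if_neg ha, zero_pow hE]

variable {n} in
theorem supp_zero {E : Fin (n + 1) →₀ ℕ} (h : ∀ a, a ≠ 0 → E a = 0) :
    E = Finsupp.single 0 (E 0) := by
  ext a
  by_cases ha : a = 0
  · subst ha
    rw [Finsupp.single_eq_same]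
  · rw [h a ha, Finsupp.single_eq_of_ne ha]

variable {p n}

theorem evX_of_ne {g : RR p n} {k t : ℤ} (hg : g ∈ grR p n k t) (hk : k ≠ 0) : evX p n g = 0 := by
  rw [g.as_sum, map_sum]
  refine Finset.sum_eq_zero fun E hE => evX_monomial p n _ ?_
  by_contra h
  push Not at h
  have h1 : Finsupp.weight (fun a : Fin (n + 1) => sV p a) E = k :=
    hg.1 (mem_support_iff.1 hE)
  rw [supp_zero h, wt_apply, Finset.sum_eq_single_of_mem (0 : Fin (n + 1)) (Finset.mem_univ _)
    (fun a _ ha => by rw [Finsupp.single_eq_of_ne ha]; simp)] at h1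
  apply hk
  rw [← h1]
  simp [sV_zero]

theorem smul_of_ne {g : RR p n} {k t : ℤ} (hg : g ∈ grR p n k t) (hk : k ≠ 0) (f : NN p G) :
    g • f = 0 := by
  rw [smul_def, evX_of_ne hg hk, map_zero]
  rfl

theorem eq_of_zero {g : RR p n} {t : ℤ} (hg : g ∈ grR p n 0 t) :
    (0 ≤ t ∧ ∃ c : ZMod p, g = C c * X 0 ^ t.toNat) ∨ g = 0 := by
  by_cases h0 : g = 0
  · exact Or.inr h0
  left
  have key : ∀ E : Fin (n + 1) →₀ ℕ, coeff E g ≠ 0 → 0 ≤ t ∧ E = Finsupp.single 0 t.toNat := by
    intro E hE
    have h1 : Finsupp.weight (fun a : Fin (n + 1) => sV p a) E = 0 := hg.1 hE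
    have h2 : Finsupp.weight (fun _ : Fin (n + 1) => (1 : ℤ)) E = t := hg.2 hE
    rw [wt_apply] at h1 h2
    have hnn : ∀ a ∈ Finset.univ, 0 ≤ (E a : ℤ) * sV p (a : Fin (n + 1)) := fun a _ => by
      by_cases ha : (a : ℕ) = 0
      · rw [ha, sV_zero, mul_zero]
      · exact mul_nonneg (by positivity) (sV_pos p ha).le
    have h3 := (Finset.sum_eq_zero_iff_of_nonneg hnn).1 h1
    have h4 : ∀ a, a ≠ 0 → E a = 0 := fun a ha => by
      have h5 := h3 a (Finset.mem_univ a)
      have h6 : (a : ℕ) ≠ 0 := fun h => ha (Fin.ext h)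
      rcases mul_eq_zero.1 h5 with h7 | h7
      · exact_mod_cast h7
      · exact absurd h7 (sV_pos p h6).ne'
    have h5 := supp_zero h4
    have h6 : (E 0 : ℤ) = t := by
      rw [← h2, Finset.sum_eq_single_of_mem (0 : Fin (n + 1)) (Finset.mem_univ _)
        (fun a _ ha => by rw [h4 a ha]; simp)]
      simp
    refine ⟨by omega, ?_⟩
    rw [h5]
    congr 1
    omega
  obtain ⟨E, hE⟩ := ne_zero_iff.1 h0
  obtain ⟨ht, hE'⟩ := key E hE
  refine ⟨ht, coeff E g, ?_⟩
  ext E'
  have h7 : C (coeff E g) * X 0 ^ t.toNat = monomial E (coeff E g) := by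
    rw [hE', ← C_mul_X_pow_eq_monomial]
  rw [h7, coeff_monomial]
  split_ifs with h
  · rw [h]
  · by_contra h8
    exact h (hE'.trans (key E' h8).2.symm)

/-! ### the grading -/

variable (p n) in
/-- concentrated in degree `m` -/
def grT (G : Type) [AddCommGroup G] (m k s : ℤ) : AddSubgroup (NN p G) :=
  if k = m ∧ 0 ≤ s then co p s.toNat else ⊥

theorem isGr_grT (m : ℤ) : IsGr p n (grT p G m) := by
  intro a k s y hy
  by_cases ha : a = 0
  · subst ha
    rw [X0_smul]
    have e1 : k + sV p ((0 : Fin (n + 1)) : ℕ) = k := by simp [sV_zero]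
    rw [e1]
    unfold grT at hy ⊢
    by_cases h : k = m ∧ 0 ≤ s
    · rw [if_pos h] at hy
      rw [if_pos ⟨h.1, by omega⟩]
      have e2 : (s + 1).toNat = s.toNat + 1 := by omega
      rw [e2]
      exact sh_co p hy
    · rw [if_neg h] at hy
      rw [AddSubgroup.mem_bot.1 hy, map_zero]
      exact AddSubgroup.zero_mem _
  · rw [Xa_smul p n ha]
    exact AddSubgroup.zero_mem _

section fg

theorem co_smul {s : ℕ} {f : NN p G} (c : ZMod p) (hf : f ∈ co p s) : c • f ∈ co p s := by
  have h2 : c • f = c.val • f := by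
    conv_lhs => rw [← ZMod.natCast_zmod_val c]
    rw [Nat.cast_smul_eq_nsmul]
  rw [h2]
  exact AddSubgroup.nsmul_mem _ hf _

variable [Module ℤ_[p] G]

theorem el_nsmul (s : ℕ) (m : ℕ) (g : G) : el p s (m • g) = m • el p s g := by
  induction m with
  | zero => rw [zero_smul, zero_smul, el_zero]
  | succ m ih => rw [succ_nsmul, succ_nsmul, el_add, ih]

theorem el_smul (s : ℕ) (c : ℤ_[p]) (g : G) :
    el p s (c • g) = (PadicInt.toZMod c) • el p s g := by
  obtain ⟨y, hy⟩ : ∃ y, c = ((PadicInt.toZMod c).val : ℤ_[p]) + y * (p : ℤ_[p]) := by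
    have h1 := PadicInt.toZMod_spec c
    rw [PadicInt.maximalIdeal_eq_span_p, Ideal.mem_span_singleton'] at h1
    obtain ⟨y, hy⟩ := h1
    refine ⟨y, ?_⟩
    rw [hy, ← ZMod.natCast_val]
    ring
  have h2 : (PadicInt.toZMod c) • el p s g = (PadicInt.toZMod c).val • el p s g := by
    conv_lhs => rw [← ZMod.natCast_zmod_val (PadicInt.toZMod c)]
    rw [Nat.cast_smul_eq_nsmul]
  rw [h2]
  conv_lhs => rw [hy]
  rw [add_smul, el_add, Nat.cast_smul_eq_nsmul, el_nsmul, mul_comm, mul_smul,
    Nat.cast_smul_eq_nsmul, (el_eq_zero_iff p s _).2 (smul_mem_Ks p s _), add_zero]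

theorem fg_grT [Module.Finite ℤ_[p] G] (m : ℤ) : FG (p := p) (n := n) (grT p G m) := by
  obtain ⟨r, g, hg⟩ := Module.Finite.exists_fin (R := ℤ_[p]) (M := G)
  refine ⟨r, fun _ => m, fun _ => 0, Fintype.linearCombination (RR p n) fun j => el p 0 (g j),
    ?_, ?_⟩
  · intro k s x hx
    rw [Fintype.linearCombination_apply]
    refine AddSubgroup.sum_mem _ fun j _ => ?_
    have hj : x j ∈ grR p n (k - m) (s - 0) := hx j
    by_cases hk : k = m
    · subst hk
      rw [sub_self, sub_zero] at hj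
      rcases eq_of_zero hj with ⟨hs, c, hc⟩ | h0
      · rw [hc, mul_smul, X0_pow_smul, C_smul, zero_add]
        unfold grT
        rw [if_pos ⟨rfl, hs⟩]
        exact co_smul c (el_mem p _ _)
      · rw [h0, zero_smul]
        exact AddSubgroup.zero_mem _
    · rw [smul_of_ne hj (sub_ne_zero.2 hk)]
      exact AddSubgroup.zero_mem _
  · intro k s y hy
    unfold grT at hy
    by_cases h : k = m ∧ 0 ≤ s
    · rw [if_pos h] at hy
      obtain ⟨rfl, hs⟩ := h
      obtain ⟨x, rfl⟩ := exists_el p hy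
      have hx : x ∈ Submodule.span ℤ_[p] (Set.range g) := by rw [hg]; exact Submodule.mem_top
      obtain ⟨c, rfl⟩ := (Submodule.mem_span_range_iff_exists_fun ℤ_[p]).1 hx
      refine ⟨fun j => C (PadicInt.toZMod (c j)) * X 0 ^ s.toNat, ?_, ?_⟩
      · intro j
        rw [sub_self, sub_zero]
        constructor
        · have h1 : IsWeightedHomogeneous (fun a : Fin (n + 1) => sV p a)
              ((X 0 : RR p n) ^ s.toNat) (s.toNat • sV p ((0 : Fin (n + 1)) : ℕ)) :=
            (isWeightedHomogeneous_X _ _ _).pow _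
          have h2 := (isWeightedHomogeneous_C (fun a : Fin (n + 1) => sV p a)
            (PadicInt.toZMod (c j))).mul h1
          have e0 : (0 : ℤ) + s.toNat • sV p ((0 : Fin (n + 1)) : ℕ) = 0 := by simp [sV_zero]
          rw [e0] at h2
          exact h2
        · have h1 : IsWeightedHomogeneous (fun _ : Fin (n + 1) => (1 : ℤ))
              ((X 0 : RR p n) ^ s.toNat) (s.toNat • (1 : ℤ)) :=
            (isWeightedHomogeneous_X _ _ _).pow _
          have h2 := (isWeightedHomogeneous_C (fun _ : Fin (n + 1) => (1 : ℤ))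
            (PadicInt.toZMod (c j))).mul h1
          have e0 : (0 : ℤ) + s.toNat • (1 : ℤ) = s := by simp [hs]
          rw [e0] at h2
          exact h2
      · rw [Fintype.linearCombination_apply]
        have h3 : ∀ (t : Finset (Fin r)), el p s.toNat (∑ i ∈ t, c i • g i) =
            ∑ i ∈ t, el p s.toNat (c i • g i) := by
          intro t
          classical
          induction t using Finset.induction_on with
          | empty => rw [Finset.sum_empty, Finset.sum_empty, el_zero]
          | insert a t ha ih => rw [Finset.sum_insert ha, Finset.sum_insert ha, el_add, ih]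
        rw [h3]
        refine Finset.sum_congr rfl fun j _ => ?_
        rw [mul_smul, X0_pow_smul, C_smul, zero_add, el_smul]
    · rw [if_neg h] at hy
      rw [AddSubgroup.mem_bot.1 hy]
      exact ⟨0, AddSubgroup.zero_mem _, map_zero _⟩

end fg

end TopN

end Vale.Agent.P221.T
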