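import Vale.Agent.P221.H903.E3

/-!
# P221, part (E3-3): exactness tested by maps from a class of objects

`Ex F Q f g` : for `A` in `Q` the sequence `[A, F X] ⟶ [A, F Y] ⟶ [A, F Z]` is exact.
`step_I`, `step_J` : the exactness properties of the next stage of a tower.
-/

open CategoryTheory MonoidalCategory Limits Pretriangulated
open Vale.Agent.P251.T Vale.Agent.P251.S Vale.Agent.P221.H395 Vale.Agent.P221.T
open Vale.Agent.P221.H903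

set_option linter.unusedSectionVars false

universe v u

namespace Vale.Agent.P221.T.H520

variable {𝒯 : Type u} [Category.{v} 𝒯] [Preadditive 𝒯] [HasZeroObject 𝒯]
    [HasShift 𝒯 ℤ] [∀ n : ℤ, (shiftFunctor 𝒯 n).Additive] [Pretriangulated 𝒯]

/-- exactness at `Y` of `X ⟶ Y ⟶ Z`, tested by the maps from the objects in `Q` to the images
under `F` -/
def Ex (F : 𝒯 ⥤ 𝒯) (Q : 𝒯 → Prop) {X Y Z : 𝒯} (f : X ⟶ Y) (g : Y ⟶ Z) : Prop :=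
  ∀ A, Q A → ∀ y : A ⟶ F.obj Y, y ≫ F.map g = 0 → ∃ z : A ⟶ F.obj X, z ≫ F.map f = y

variable (F : 𝒯 ⥤ 𝒯) [F.CommShift ℤ] [F.IsTriangulated] (Q : 𝒯 → Prop)

theorem ex_dist₂ {X Y Z : 𝒯} {f : X ⟶ Y} {g : Y ⟶ Z} {h : Z ⟶ X⟦(1 : ℤ)⟧}
    (H : Triangle.mk f g h ∈ distTriang 𝒯) : Ex F Q f g := by
  intro A _ y hy
  obtain ⟨z, hz⟩ := Triangle.coyoneda_exact₂ _ (F.map_distinguished _ H) y hy
  exact ⟨z, hz.symm⟩

theorem ex_dist₃ {X Y Z : 𝒯} {f : X ⟶ Y} {g : Y ⟶ Z} {h : Z ⟶ X⟦(1 : ℤ)⟧}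
    (H : Triangle.mk f g h ∈ distTriang 𝒯) : Ex F Q g h := by
  intro A _ y hy
  obtain ⟨z, hz⟩ := Triangle.coyoneda_exact₃ _ (F.map_distinguished _ H) y (by
    change y ≫ F.map h ≫ (F.commShiftIso (1 : ℤ)).hom.app X = 0
    rw [← Category.assoc, hy, zero_comp])
  exact ⟨z, hz.symm⟩

variable {F Q}

theorem step_I {P L L' M Y V : 𝒯} {i : P ⟶ L} {u : L ⟶ M} {κ : Y ⟶ L} {j : L ⟶ L'}
    {u' : L' ⟶ Y⟦(1 : ℤ)⟧} {D : Y ⟶ M} {D' : M ⟶ V} (hI : Ex F Q i u) (hD : Ex F Q D D')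
    (hκ : κ ≫ u = D) (uD : u ≫ D' = 0) (H : Triangle.mk κ j u' ∈ distTriang 𝒯) :
    Ex F Q (i ≫ j) u' := by
  intro A hA a ha
  obtain ⟨b, rfl⟩ := ex_dist₃ F Q H A hA a ha
  obtain ⟨c, hc⟩ := hD A hA (b ≫ F.map u) (by
    rw [Category.assoc, ← F.map_comp, uD, F.map_zero, comp_zero])
  obtain ⟨α, hα⟩ := hI A hA (b - c ≫ F.map κ) (by
    rw [Preadditive.sub_comp, Category.assoc, ← F.map_comp, hκ, hc, sub_self])
  have h0 : κ ≫ j = 0 := comp_distTriang_mor_zero₁₂ _ H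
  refine ⟨α, ?_⟩
  rw [F.map_comp, ← Category.assoc, hα, Preadditive.sub_comp, Category.assoc, ← F.map_comp, h0,
    F.map_zero, comp_zero, sub_zero]

theorem step_J {P L L' M Y V Z₀ : 𝒯} {i : P ⟶ L} {u : L ⟶ M} {κ : Y ⟶ L} {j : L ⟶ L'}
    {u' : L' ⟶ Y⟦(1 : ℤ)⟧} {D : Y ⟶ M} {D' : V ⟶ Y⟦(1 : ℤ)⟧} {D₀ : Z₀ ⟶ P}
    (hQ : ∀ A, Q A → Q (A⟦(1 : ℤ)⟧)) (hJ : Ex F Q D₀ i) (hD : Ex F Q D' (D⟦(1 : ℤ)⟧'))
    (hκ : κ ≫ u = D) (iu : i ≫ u = 0) (nul : D' ≫ κ⟦(1 : ℤ)⟧' = 0)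
    (H : Triangle.mk κ j u' ∈ distTriang 𝒯) : Ex F Q D₀ (i ≫ j) := by
  intro A hA α hα
  refine hJ A hA α ?_
  obtain ⟨c, hc⟩ := ex_dist₂ F Q H A hA (α ≫ F.map i) (by
    rw [Category.assoc, ← F.map_comp, hα])
  have hcD : c ≫ F.map D = 0 := by
    rw [← hκ, F.map_comp, ← Category.assoc, hc, Category.assoc, ← F.map_comp, iu, F.map_zero,
      comp_zero]
  have hn : ∀ {M' : 𝒯} (f : Y ⟶ M'), (c⟦(1 : ℤ)⟧' ≫ (F.commShiftIso (1 : ℤ)).inv.app Y) ≫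
      F.map (f⟦(1 : ℤ)⟧') = (c ≫ F.map f)⟦(1 : ℤ)⟧' ≫ (F.commShiftIso (1 : ℤ)).inv.app M' := by
    intro M' f
    rw [Functor.map_comp, Category.assoc, Category.assoc]
    congr 1
    exact ((F.commShiftIso (1 : ℤ)).inv.naturality f).symm
  obtain ⟨e, he⟩ := hD _ (hQ A hA) (c⟦(1 : ℤ)⟧' ≫ (F.commShiftIso (1 : ℤ)).inv.app Y) (by
    rw [hn, hcD, Functor.map_zero, zero_comp])
  have h1 : (c ≫ F.map κ)⟦(1 : ℤ)⟧' ≫ (F.commShiftIso (1 : ℤ)).inv.app L = 0 := by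
    rw [← hn, ← he, Category.assoc, ← F.map_comp, nul, F.map_zero, comp_zero]
  have h2 : (c ≫ F.map κ)⟦(1 : ℤ)⟧' = 0 := by
    rw [← cancel_mono ((F.commShiftIso (1 : ℤ)).inv.app L), h1, zero_comp]
  rw [← hc]
  exact (shiftFunctor 𝒯 (1 : ℤ)).map_injective (h2.trans (Functor.map_zero _ _ _).symm)

end Vale.Agent.P221.T.H520
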