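import Vale.Agent.P221.H903.E3

/-!
# P221, part (E3-3): Koszul cochains of the cokernel of `[P⟦k⟧, F_1] ⟶ [P⟦k⟧, P]`

`exists_cob` : cocycles of degree at least two are coboundaries.
-/

open CategoryTheory MonoidalCategory Limits Pretriangulated
open Vale.Agent.P251.T Vale.Agent.P251.S Vale.Agent.P221.H395 Vale.Agent.P221.T
open Vale.Agent.P221.H903

set_option linter.unusedSectionVars false

universe v u

namespace Vale.Agent.P221.T.H520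

variable {𝒯 : Type u} [Category.{0} 𝒯] [Preadditive 𝒯] [HasZeroObject 𝒯]
    [HasShift 𝒯 ℤ] [∀ n : ℤ, (shiftFunctor 𝒯 n).Additive] [Pretriangulated 𝒯] [IsTriangulated 𝒯]
    [MonoidalCategory 𝒯] [SymmetricCategory 𝒯] [TensorTriangulated 𝒯] [MonoidalClosed 𝒯]
    [HasCoproducts.{0} 𝒯] [HasProducts.{0} 𝒯] [StableCat 𝒯]

variable {P Z : 𝒯} {d : ℕ → ℤ} (x : ∀ l, P⟦d l⟧ ⟶ P) (D : Z ⟶ P)

/-- the maps which factor through `D` -/
def Sq (k : ℤ) : AddSubgroup (GM P P k) where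
  carrier := {a | ∃ f : P⟦k⟧ ⟶ Z, f ≫ D = a}
  zero_mem' := ⟨0, zero_comp⟩
  add_mem' := by
    rintro _ _ ⟨f, rfl⟩ ⟨g, rfl⟩
    exact ⟨f + g, Preadditive.add_comp _ _ _ _ _ _⟩
  neg_mem' := by
    rintro _ ⟨f, rfl⟩
    exact ⟨-f, Preadditive.neg_comp _ _⟩

theorem mem_Sq {k : ℤ} {a : GM P P k} : a ∈ Sq D k ↔ ∃ f : P⟦k⟧ ⟶ Z, f ≫ D = a := Iff.rfl

/-- the cokernel -/
abbrev GQ (k : ℤ) : Type := GM P P k ⧸ Sq D k

/-- the action of `x l` -/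
noncomputable def aq (l : ℕ) {k k' : ℤ} (h : k + d l = k') : GQ D k →+ GQ D k' :=
  QuotientAddGroup.map _ _ (xc x P l h) (by
    rintro _ ⟨f, rfl⟩
    exact ⟨gc h (x l) f, (gc_comp _ _ _ _).symm⟩)

theorem aq_mk (l : ℕ) {k k' : ℤ} (h : k + d l = k') (a : GM P P k) :
    aq x D l h (QuotientAddGroup.mk a) = QuotientAddGroup.mk (gc h (x l) a) := rfl

/-- the operators -/
noncomputable abbrev XQ (l : ℕ) : (∀ k, GQ D k) →+ (∀ k, GQ D k) :=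
  xop (H := GQ D) (fun l _ _ h => aq x D l h) l

/-- the projection -/
def prj : (∀ e, GM P P e) →+ (∀ e, GQ D e) where
  toFun a e := QuotientAddGroup.mk (a e)
  map_zero' := rfl
  map_add' _ _ := rfl

theorem prj_surj (a : ∀ k, GQ D k) : ∃ a', prj D a' = a := by
  choose a' ha' using fun k => QuotientAddGroup.mk_surjective (a k)
  exact ⟨a', funext ha'⟩

theorem mk_eq_zero {k : ℤ} {a : GM P P k} :
    (QuotientAddGroup.mk a : GQ D k) = 0 ↔ ∃ f : P⟦k⟧ ⟶ Z, f ≫ D = a :=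
  (QuotientAddGroup.eq_zero_iff a).trans (mem_Sq D)

theorem mk_eq_mk {k : ℤ} {a b : GM P P k} :
    (QuotientAddGroup.mk a : GQ D k) = QuotientAddGroup.mk b ↔
      ∃ f : P⟦k⟧ ⟶ Z, f ≫ D = a - b := by
  rw [← mk_eq_zero, QuotientAddGroup.mk_sub, sub_eq_zero]

theorem prj_XC (l : ℕ) (a : ∀ e, GM P P e) : prj D (XC x P l a) = XQ x D l (prj D a) := rfl

theorem prj_mem {k : ℤ} {a : ∀ e, GM P P e} (ha : a ∈ gsub (GM P P) k) :
    prj D a ∈ gsub (GQ D) k := by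
  intro e he
  change (QuotientAddGroup.mk (a e) : GQ D e) = 0
  rw [ha e he]
  rfl

theorem exists_prj {k : ℤ} {a : ∀ e, GQ D e} (ha : a ∈ gsub (GQ D) k) :
    ∃ a' ∈ gsub (GM P P) k, prj D a' = a := by
  obtain ⟨a', ha'⟩ := QuotientAddGroup.mk_surjective (a k)
  refine ⟨Pi.single k a', single_mem _ _, ?_⟩
  refine gsub_ext (prj_mem D (single_mem _ _)) ha ?_
  rw [← ha']
  change (QuotientAddGroup.mk (Pi.single (M := GM P P) k a' k) : GQ D k) = _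
  rw [Pi.single_eq_same]

theorem XQ_mem (l : ℕ) (k : ℤ) (y : ∀ e, GQ D e) (hy : y ∈ gsub (GQ D) k) :
    XQ x D l y ∈ gsub (GQ D) (k + d l) := xop_mem _ l hy

variable {x}

theorem XQ_comm (hx : XComm x) (i l : ℕ) (a : ∀ k, GQ D k) :
    XQ x D i (XQ x D l a) = XQ x D l (XQ x D i a) := by
  obtain ⟨a, rfl⟩ := prj_surj D a
  rw [← prj_XC, ← prj_XC, ← prj_XC, ← prj_XC, XC_comm hx]

variable {p : ℕ} {C : 𝒯} {D}

/-- the first cohomology -/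
theorem XQ_H1 (H : PHyp p C x) (hH : H1P p C x H.pP) {𝔽 : FreeOn p C P d 0 (0 + 1) Z}
    (hD : IsKos x 𝔽 (freeOn_self H.pP) D) (m : ℕ) (c : ℤ) (hc : 0 ≤ c)
    (ψ : ℕ → ∀ e, GQ D e) (hψ : ∀ l < m, ψ l ∈ gsub (GQ D) (c + d l))
    (hcomm : ∀ i < m, ∀ l < m, XQ x D i (ψ l) = XQ x D l (ψ i)) :
    ∃ φ ∈ gsub (GQ D) c, ∀ l < m, XQ x D l φ = ψ l := by
  choose ψ' hψ' using fun l => QuotientAddGroup.mk_surjective (ψ l (c + d l))
  obtain ⟨φ, hφ⟩ := hH Z 𝔽 D hD m c hc ψ' (fun i hi l hl k' h h' => by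
    rw [← mk_eq_mk, ← aq_mk x D i h, ← aq_mk x D l h', hψ', hψ']
    have h1 := congrFun (hcomm i hi l hl) k'
    rwa [xop_apply _ i _ h, xop_apply _ l _ h'] at h1)
  refine ⟨Pi.single c (QuotientAddGroup.mk φ), single_mem _ _, fun l hl => ?_⟩
  refine gsub_ext (XQ_mem x D l c _ (single_mem _ _)) (hψ l hl) ?_
  rw [xop_apply _ l _ rfl, Pi.single_eq_same, aq_mk, ← hψ' l, mk_eq_mk]
  exact hφ l hl

/-- **cocycles of degree at least two are coboundaries** -/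
theorem exists_cob (H : PHyp p C x) (hH : H1P p C x H.pP) {𝔽 : FreeOn p C P d 0 (0 + 1) Z}
    (hD : IsKos x 𝔽 (freeOn_self H.pP) D) {s : ℕ} {c : ℤ} (hc : 0 ≤ c)
    {α : Finset ℕ → ∀ e, GM P P e}
    (hα : ∀ I : Finset ℕ, I.card = s + 1 + 1 → α I ∈ gsub (GM P P) (c + dI d I))
    (hz : ∀ I : Finset ℕ, I.card = s + 1 + 1 + 1 → ∀ e, ∃ f : P⟦e⟧ ⟶ Z,
      f ≫ D = cob (XC x P) α I e) :
    ∃ γ : Finset ℕ → ∀ e, GM P P e,
      (∀ J : Finset ℕ, J.card = s + 1 → γ J ∈ gsub (GM P P) (c + dI d J)) ∧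
      ∀ I : Finset ℕ, I.card = s + 1 + 1 → ∀ e, ∃ f : P⟦e⟧ ⟶ Z,
        f ≫ D = cob (XC x P) γ I e - α I e := by
  obtain ⟨φ, hφ, hc'⟩ := claimA (X := XQ x D) (G := gsub (GQ D)) (d := d) (d0 := 0) (XQ_mem x D)
    H.nonneg (XQ_comm D H.comm) (XQ_H1 H hH hD) (s := s) (c := c) hc
    (ψ := fun I => prj D (α I)) (fun I hI => prj_mem D (hα I hI)) (fun I hI => by
      rw [← map_cob (prj D) (fun l a => prj_XC x D l a)]
      funext e
      exact (mk_eq_zero D).2 (hz I hI e))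
  have key : ∀ J : Finset ℕ, ∃ γ : ∀ e, GM P P e,
      (J.card = s + 1 → γ ∈ gsub (GM P P) (c + dI d J)) ∧ prj D γ = φ J := by
    intro J
    by_cases h : J.card = s + 1
    · obtain ⟨γ, h1, h2⟩ := exists_prj D (hφ J h)
      exact ⟨γ, fun _ => h1, h2⟩
    · obtain ⟨γ, h2⟩ := prj_surj D (φ J)
      exact ⟨γ, fun h' => absurd h' h, h2⟩
  choose γ hγ hγ' using key
  refine ⟨γ, hγ, fun I hI e => ?_⟩
  rw [← mk_eq_mk]
  have h1 := hc' I hI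
  have h2 : φ = fun J => prj D (γ J) := funext fun J => (hγ' J).symm
  rw [h2, ← map_cob (prj D) (fun l a => prj_XC x D l a)] at h1
  exact congrFun h1 e

end Vale.Agent.P221.T.H520
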